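import Vale.Agent.P238.Scales
import Mathlib.Data.Nat.ModEq

/-!
Counting the scales and offsets at which a set of points fails to be well separated.
-/

namespace Vale.Agent.P238

open Finset

variable {n : ℕ}

/-- The window of length in `[w, 2 * w)` containing `i`. -/
def win (n w i : ℕ) : ℕ := min (i / w) (n / w - 1)

lemma win_lt {w : ℕ} (hw : 0 < w) (hn : w ≤ n) (i : ℕ) : win n w i < n / w := by
  have : 0 < n / w := Nat.div_pos hn hw
  unfold win
  omega

lemma win_dist {w i i' : ℕ} (hw : 0 < w) (hi : i < n) (hi' : i' < n)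
    (h : win n w i = win n w i') : i' < i + 2 * w := by
  have h1 := Nat.div_add_mod i w
  have h2 := Nat.div_add_mod i' w
  have h1' := Nat.mod_lt i hw
  have h2' := Nat.mod_lt i' hw
  have h3 := Nat.div_add_mod n w
  have h3' := Nat.mod_lt n hw
  unfold win at h
  by_cases hc : i / w < n / w - 1
  · have e : i' / w = i / w := by omega
    rw [e] at h2
    omega
  · have h4 : n / w - 1 ≤ i / w := by omega
    have h5 : w * (n / w - 1) ≤ w * (i / w) := Nat.mul_le_mul_left w h4
    rw [Nat.mul_sub_one] at h5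
    omega

/-- The points of the `b`-th window. -/
def window (n w b : ℕ) : Finset (Fin n) := Finset.univ.filter (fun i => win n w i = b)

lemma mem_window {w b : ℕ} {i : Fin n} : i ∈ window n w b ↔ win n w i = b := by
  simp [window]

lemma exists_gap {S : Finset (Fin n)} {g : ℕ} {i i' : Fin n} (hi : i ∈ S)
    (h : S.card * g < (i' : ℕ) - i) :
    ∃ e ∈ S, (i : ℕ) ≤ e ∧ (e : ℕ) < i' ∧
      ∀ e2 ∈ S, (e : ℕ) < e2 → (e : ℕ) + g < e2 := by
  by_contra hcon
  push Not at hcon
  have hsub : Finset.Ico (i : ℕ) i' ⊆ S.biUnion (fun e => Finset.Ico (e : ℕ) (e + g)) := by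
    intro z hz
    rw [Finset.mem_Ico] at hz
    obtain ⟨e, he, hmax⟩ := Finset.exists_max_image (S.filter (fun e : Fin n => (e : ℕ) ≤ z))
      (fun e => (e : ℕ)) ⟨i, Finset.mem_filter.2 ⟨hi, hz.1⟩⟩
    obtain ⟨heS, hez⟩ := Finset.mem_filter.1 he
    have hie : (i : ℕ) ≤ e := hmax i (Finset.mem_filter.2 ⟨hi, hz.1⟩)
    obtain ⟨e2, he2, hlt, hle⟩ := hcon e heS hie (by omega)
    refine Finset.mem_biUnion.2 ⟨e, heS, Finset.mem_Ico.2 ⟨hez, ?_⟩⟩
    by_contra hc
    have hz2 : (e2 : ℕ) ≤ z := by omega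
    have := hmax e2 (Finset.mem_filter.2 ⟨he2, hz2⟩)
    omega
  have h1 := (Finset.card_le_card hsub).trans (Finset.card_biUnion_le)
  simp only [Nat.card_Ico, Nat.add_sub_cancel_left, Finset.sum_const, smul_eq_mul] at h1
  omega

/-- The `j`-th scale carries a pair of points of `S`. -/
def HasScale (Q : ℕ) (g : ℕ → ℕ) (j : ℕ) (S : Finset (Fin n)) : Prop :=
  ∃ i ∈ S, ∃ i' ∈ S, Q * g j < (i' : ℕ) - i ∧ (i' : ℕ) - i ≤ g (j + 1)

lemma scale_count {w k Q : ℕ} (hw : 0 < w) {g : ℕ → ℕ} (hg : Monotone g) (hg0 : 2 * w ≤ g 0)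
    {S : Finset (Fin n)} (hcard : S.card ≤ Q)
    (hwin : ∀ i ∈ S, k < (S ∩ window n w (win n w i)).card) (J : Finset ℕ)
    (hJ : ∀ j ∈ J, HasScale Q g j S) :
    J.card * k ≤ S.card := by
  classical
  have hchoice : ∀ j ∈ J, ∃ e ∈ S, (∀ e2 ∈ S, (e : ℕ) < e2 → (e : ℕ) + g j < e2) ∧
      ∃ e2 ∈ S, (e : ℕ) < e2 ∧ (e2 : ℕ) ≤ e + g (j + 1) := by
    intro j hj
    obtain ⟨i, hi, i', hi', h1, h2⟩ := hJ j hj
    have h3 : S.card * g j ≤ Q * g j := Nat.mul_le_mul_right _ hcard
    obtain ⟨e, he, hie, hei, hgap⟩ := exists_gap (i' := i') hi (lt_of_le_of_lt h3 h1)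
    exact ⟨e, he, hgap, i', hi', hei, by omega⟩
  choose e he hgap hnext using hchoice
  have key : ∀ j (hj : j ∈ J) j' (hj' : j' ∈ J), j < j' → e j hj ≠ e j' hj' := by
    intro j hj j' hj' hlt heq
    obtain ⟨e2, he2, h1, h2⟩ := hnext j hj
    have h3 := hgap j' hj' e2 he2 (heq ▸ h1)
    have h4 : g (j + 1) ≤ g j' := hg hlt
    rw [← heq] at h3
    omega
  have hwinne : ∀ j (hj : j ∈ J) j' (hj' : j' ∈ J), (e j hj : ℕ) < e j' hj' →
      win n w (e j hj) ≠ win n w (e j' hj') := by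
    intro j hj j' hj' hlt heq
    have h1 := hgap j hj (e j' hj') (he j' hj') hlt
    have h2 := win_dist (n := n) hw (e j hj).2 (e j' hj').2 heq
    have h3 : g 0 ≤ g j := hg (Nat.zero_le j)
    omega
  have hinj : ∀ a ∈ J.attach, ∀ b ∈ J.attach,
      win n w (e a.1 a.2) = win n w (e b.1 b.2) → a = b := by
    intro a _ b _ hab
    have h1 : e a.1 a.2 = e b.1 b.2 := by
      rcases Nat.lt_trichotomy (e a.1 a.2 : ℕ) (e b.1 b.2) with h | h | h
      · exact absurd hab (hwinne _ _ _ _ h)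
      · exact Fin.ext h
      · exact absurd hab.symm (hwinne _ _ _ _ h)
    rcases Nat.lt_trichotomy a.1 b.1 with h | h | h
    · exact absurd h1 (key _ a.2 _ b.2 h)
    · exact Subtype.ext h
    · exact absurd h1.symm (key _ b.2 _ a.2 h)
  have hdis : (J.attach.image (fun a => win n w (e a.1 a.2))).card = J.card := by
    rw [Finset.card_image_of_injOn (fun a ha b hb h => hinj a ha b hb h), Finset.card_attach]
  calc J.card * k = (J.attach.image (fun a => win n w (e a.1 a.2))).card * k := by rw [hdis]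
    _ ≤ ∑ b ∈ J.attach.image (fun a => win n w (e a.1 a.2)), (S ∩ window n w b).card := by
        rw [← smul_eq_mul]
        refine Finset.card_nsmul_le_sum _ _ _ fun b hb => ?_
        obtain ⟨a, -, rfl⟩ := Finset.mem_image.1 hb
        exact (hwin _ (he a.1 a.2)).le
    _ = ((J.attach.image (fun a => win n w (e a.1 a.2))).biUnion
          (fun b => S ∩ window n w b)).card := by
        refine (Finset.card_biUnion fun b _ b' _ hb => ?_).symm
        rw [Function.onFun, Finset.disjoint_left]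
        intro i h1 h2
        rw [Finset.mem_inter, mem_window] at h1 h2
        exact hb (h1.2.symm.trans h2.2)
    _ ≤ S.card := Finset.card_le_card fun i hi => by
        obtain ⟨b, -, hb⟩ := Finset.mem_biUnion.1 hi
        exact (Finset.mem_inter.1 hb).1

lemma straddle_card {L i i' : ℕ} (hL : 0 < L) (h : i ≤ i') :
    ((range (2 * L)).filter (fun r => blk L r i ≠ blk L r i')).card ≤ 2 * (i' - i) := by
  classical
  refine le_trans (Finset.card_le_card_of_injOn
    (fun r => ((i' + 2 * L - r) % L, (i' + 2 * L - r) / L % 2))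
    (t := range (i' - i) ×ˢ range 2) ?_ ?_) (by simp [Nat.mul_comm])
  · intro r hr
    rw [Finset.mem_coe, Finset.mem_filter, Finset.mem_range] at hr
    rw [Finset.mem_coe, Finset.mem_product, Finset.mem_range, Finset.mem_range]
    refine ⟨?_, Nat.mod_lt _ (by norm_num)⟩
    by_contra hc
    apply hr.2
    have h1 := Nat.div_add_mod (i' + 2 * L - r) L
    have h2 := Nat.mod_lt (i' + 2 * L - r) hL
    simp only at hc
    unfold blk
    refine Nat.div_eq_of_lt_le ?_ ?_
    · rw [Nat.mul_comm _ L]; omega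
    · have h3 : ((i' + 2 * L - r) / L + 1) * L = L * ((i' + 2 * L - r) / L) + L := by ring
      omega
  · intro a ha b hb hab
    rw [Finset.mem_coe, Finset.mem_filter, Finset.mem_range] at ha hb
    simp only [Prod.mk.injEq] at hab
    have hm : (i' + 2 * L - a) % (L * 2) = (i' + 2 * L - b) % (L * 2) := by
      rw [Nat.mod_mul, Nat.mod_mul, hab.1, hab.2]
    have := Nat.ModEq.eq_of_abs_lt hm (by rw [abs_lt]; constructor <;> push_cast <;> omega)
    omega

lemma bad_offsets {L H Q δ G : ℕ} (hL : 0 < L) {S : Finset (Fin n)} (hcard : S.card ≤ Q)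
    (hG : 3 * H ≤ G)
    (hno : ∀ i ∈ S, ∀ i' ∈ S, (i' : ℕ) - i ≤ δ ∨ G < (i' : ℕ) - i) (R : Finset ℕ)
    (hR : ∀ r ∈ R, r < 2 * L ∧ ¬ Good L r H Q S) :
    R.card ≤ 2 * δ * S.card ^ 2 := by
  classical
  have hsub : R ⊆ ((S ×ˢ S).filter (fun p => (p.1 : ℕ) ≤ p.2 ∧ (p.2 : ℕ) - p.1 ≤ δ)).biUnion
      (fun p => (range (2 * L)).filter (fun r => blk L r p.1 ≠ blk L r p.2)) := by
    intro r hr
    obtain ⟨hrL, hg⟩ := hR r hr
    unfold Good at hg
    push Not at hg
    obtain ⟨i, hi, i', hi', h1, h2, hne⟩ := hg hcard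
    rcases le_total (i : ℕ) i' with hle | hle
    · refine Finset.mem_biUnion.2 ⟨(i, i'), Finset.mem_filter.2 ⟨Finset.mem_product.2 ⟨hi, hi'⟩,
        hle, ?_⟩, Finset.mem_filter.2 ⟨Finset.mem_range.2 hrL, hne⟩⟩
      rcases hno i hi i' hi' with h | h
      · exact h
      · simp only; omega
    · refine Finset.mem_biUnion.2 ⟨(i', i), Finset.mem_filter.2 ⟨Finset.mem_product.2 ⟨hi', hi⟩,
        hle, ?_⟩, Finset.mem_filter.2 ⟨Finset.mem_range.2 hrL, hne.symm⟩⟩
      rcases hno i' hi' i hi with h | h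
      · exact h
      · simp only; omega
  refine (Finset.card_le_card hsub).trans ((Finset.card_biUnion_le_card_mul _ _ (2 * δ) ?_).trans ?_)
  · intro p hp
    obtain ⟨-, h1, h2⟩ := Finset.mem_filter.1 hp
    exact (straddle_card hL h1).trans (by omega)
  · refine le_trans (Nat.mul_le_mul_right _ ((Finset.card_filter_le _ _).trans_eq
      (Finset.card_product S S))) (le_of_eq ?_)
    ring

end Vale.Agent.P238
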