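import Vale.Agent.P238.Window
import Vale.Agent.P238.Count

/-!
The inequality for zero-one functions, and its extension to real functions.
-/

namespace Vale.Agent.P238

open Finset
open Vale.Agent.P063 (coef ex avg)

/-- The parameters of the construction. -/
structure Par where
  /-- length of the strings -/
  n : ℕ
  /-- size of clusters -/
  k : ℕ
  /-- number of scales -/
  m : ℕ
  /-- window rotation parameter -/
  u : ℕ
  hk : 1 ≤ k
  hm : 1 ≤ m
  hQ : 6 ≤ m * k
  hu : 5 ^ k * (m * k) ≤ u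
  hn : 2 * u ^ 8 * (3 * (m * k) ^ 5) ^ m ≤ n
  hn' : 4096 ≤ n

namespace Par

variable (P : Par)

/-- The bound on the size of the sets considered. -/
def Q : ℕ := P.m * P.k

/-- The window length. -/
def w : ℕ := P.u ^ 8

/-- The gap parameter of scale `j`. -/
def g (j : ℕ) : ℕ := 2 * P.w * (3 * P.Q ^ 5) ^ j

/-- The block length of scale `j`. -/
def L (j : ℕ) : ℕ := P.Q ^ 3 * P.g j

/-- The separation of scale `j`. -/
def H (j : ℕ) : ℕ := P.Q ^ 5 * P.g j

lemma Q_ge : 6 ≤ P.Q := P.hQ

lemma Q_le_u : P.Q ≤ P.u := le_trans (Nat.le_mul_of_pos_left _ (pow_pos (by norm_num) _)) P.hu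

lemma u_ge : 2 ≤ P.u := le_trans (le_trans (by norm_num) P.Q_ge) P.Q_le_u

lemma w_pos : 0 < P.w := pow_pos (by have := P.u_ge; omega) _

lemma g_pos (j : ℕ) : 0 < P.g j := by
  have := P.w_pos
  have := P.Q_ge
  unfold g
  positivity

lemma L_pos (j : ℕ) : 0 < P.L j := by
  have := P.g_pos j
  have := P.Q_ge
  unfold L
  positivity

lemma g_succ (j : ℕ) : P.g (j + 1) = 3 * P.H j := by
  unfold H g
  rw [pow_succ]
  ring

lemma H_eq (j : ℕ) : P.H j = P.Q ^ 2 * P.L j := by unfold H L; ring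

lemma three_L_le (j : ℕ) : 3 * P.L j ≤ P.H j := by
  rw [H_eq]
  refine Nat.mul_le_mul_right _ ?_
  have := P.Q_ge
  nlinarith

lemma g_mono : Monotone P.g := by
  refine monotone_nat_of_le_succ fun j => ?_
  rw [g_succ, H]
  have : 1 ≤ P.Q ^ 5 := Nat.one_le_pow _ _ (by have := P.Q_ge; omega)
  nlinarith

lemma three_H_le {j : ℕ} (hj : j < P.m) : 3 * P.H j ≤ P.n := by
  rw [← g_succ]
  exact (P.g_mono (show j + 1 ≤ P.m from hj)).trans P.hn

lemma H_pos (j : ℕ) : 0 < P.H j := by
  have := P.L_pos j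
  have := P.three_L_le j
  omega

lemma w_le : P.w ≤ P.n := by
  have h1 := P.g_mono (Nat.zero_le P.m)
  have h2 : P.g 0 = 2 * P.w := by simp [g]
  have h3 : P.g P.m ≤ P.n := P.hn
  omega

/-- The block swap of scale `j` with offset `r`. -/
def pi (j r : ℕ) : Equiv.Perm (Fin P.n) :=
  if hr : r < 2 * P.L j then sw P.n (P.L_pos j) hr P.n else Equiv.refl _

/-- The end of window `b`. -/
def hi (b : ℕ) : ℕ := if b + 1 = P.n / P.w then P.n else (b + 1) * P.w

/-- The rotation of window `b` by `s + 1`. -/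
def wrot (b s : ℕ) : Equiv.Perm (Fin P.n) := rot P.n (b * P.w) (P.hi b) (s + 1)

lemma hi_spec {b : ℕ} (hb : b < P.n / P.w) : (b + 1) * P.w ≤ P.hi b ∧ P.hi b ≤ P.n := by
  have h1 : (b + 1) * P.w ≤ P.n / P.w * P.w := Nat.mul_le_mul_right _ hb
  have h2 := Nat.div_mul_le_self P.n P.w
  unfold hi
  split_ifs <;> omega

lemma mem_window_iff {b : ℕ} (hb : b < P.n / P.w) (i : Fin P.n) :
    i ∈ window P.n P.w b ↔ b * P.w ≤ (i : ℕ) ∧ (i : ℕ) < P.hi b := by
  have h1 := Nat.le_div_iff_mul_le P.w_pos (x := b) (y := (i : ℕ))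
  have h2 := Nat.div_lt_iff_lt_mul P.w_pos (x := (i : ℕ)) (y := b + 1)
  rw [mem_window, win, hi]
  constructor
  · intro h
    refine ⟨h1.1 (by omega), ?_⟩
    split_ifs with hc
    · exact i.2
    · exact h2.1 (by omega)
  · rintro ⟨ha, hb'⟩
    have h3 := h1.2 ha
    split_ifs at hb' with hc
    · omega
    · have := h2.2 hb'; omega

/-- The average movement under the long moves. -/
noncomputable def lhs (φ : Finset (Fin P.n) → ℝ) : ℝ :=
  ∑ j ∈ range P.m, (1 / (2 * P.L j : ℝ)) * ∑ r ∈ range (2 * P.L j), mv φ (act (P.pi j r))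

/-- The weighted movement under the short moves. -/
noncomputable def rhs (φ : Finset (Fin P.n) → ℝ) : ℝ :=
  2 * (P.Q : ℝ) * ∑ j ∈ range P.m, ∑ a ∈ range (P.n / P.H j + 1),
      (mv φ (act (stepUp P.n (P.L j) (P.H j) a)) + mv φ (act (stepDown P.n (P.L j) (P.H j) a))) +
    (14 / (P.k : ℝ)) * ∑ i, mv φ (flipAt i) +
    (4 * (P.m : ℝ) / (P.u : ℝ) ^ 2) *
      ∑ b ∈ range (P.n / P.w), ∑ s ∈ range (P.u ^ 4), mv φ (act (P.wrot b s))

/-- The offsets of scale `j` at which `S` is not good. -/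
noncomputable def badOff (j : ℕ) (S : Finset (Fin P.n)) : Finset ℕ := by
  classical exact (range (2 * P.L j)).filter (fun r => ¬ Good (P.L j) r (P.H j) P.Q S)

/-- Whether some window holds few points of `S`. -/
def fewIn (S : Finset (Fin P.n)) (b : ℕ) : Prop :=
  1 ≤ (S ∩ window P.n P.w b).card ∧ (S ∩ window P.n P.w b).card ≤ P.k

lemma mem_badOff {j r : ℕ} {S : Finset (Fin P.n)} :
    r ∈ P.badOff j S ↔ r < 2 * P.L j ∧ ¬ Good (P.L j) r (P.H j) P.Q S := by
  classical
  simp [badOff]

lemma count_set (S : Finset (Fin P.n)) [DecidablePred (P.fewIn S)] :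
    ∑ j ∈ range P.m, (1 / (2 * P.L j : ℝ)) * (P.badOff j S).card ≤
      2 * (S.card : ℝ) / P.k + (P.m : ℝ) * ((range (P.n / P.w)).filter (P.fewIn S)).card := by
  classical
  have hk0 : (0 : ℝ) < P.k := by exact_mod_cast P.hk
  have hQ : (P.Q : ℝ) = P.m * P.k := by simp [Q]
  have hone : ∀ j, (1 / (2 * P.L j : ℝ)) * (P.badOff j S).card ≤ 1 := by
    intro j
    have h0 : (0 : ℝ) < P.L j := by exact_mod_cast P.L_pos j
    rw [div_mul_eq_mul_div, one_mul, div_le_one (by positivity)]
    have h1 : (P.badOff j S).card ≤ 2 * P.L j := by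
      unfold badOff
      exact (Finset.card_filter_le _ _).trans_eq (Finset.card_range _)
    exact_mod_cast h1
  have hall : ∑ j ∈ range P.m, (1 / (2 * P.L j : ℝ)) * (P.badOff j S).card ≤ (P.m : ℝ) := by
    refine (Finset.sum_le_sum fun j _ => hone j).trans ?_
    simp
  by_cases hbig : P.Q < S.card
  · refine hall.trans (le_add_of_le_of_nonneg ?_ (by positivity))
    rw [le_div_iff₀ hk0]
    have : (P.m : ℝ) * P.k ≤ S.card := by
      rw [← hQ]; exact_mod_cast hbig.le
    have : (0 : ℝ) ≤ S.card := Nat.cast_nonneg _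
    linarith
  by_cases hfew : ((range (P.n / P.w)).filter (P.fewIn S)).Nonempty
  · refine hall.trans (le_add_of_nonneg_of_le (by positivity) ?_)
    exact le_mul_of_one_le_right (Nat.cast_nonneg _) (by exact_mod_cast hfew.card_pos)
  rw [not_lt] at hbig
  refine le_add_of_le_of_nonneg ?_ (by positivity)
  have hwin : ∀ i ∈ S, P.k < (S ∩ window P.n P.w (win P.n P.w i)).card := by
    intro i hi
    by_contra hc
    refine hfew ⟨win P.n P.w i, Finset.mem_filter.2 ⟨Finset.mem_range.2 (win_lt P.w_pos P.w_le _),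
      Finset.card_pos.2 ⟨i, Finset.mem_inter.2 ⟨hi, mem_window.2 rfl⟩⟩, not_lt.1 hc⟩⟩
  set J := (range P.m).filter (fun j => HasScale P.Q P.g j S) with hJ
  have hJc : J.card * P.k ≤ S.card := scale_count P.w_pos P.g_mono (le_of_eq (by simp [g])) hbig
    hwin J fun j hj => (Finset.mem_filter.1 hj).2
  have hrest : ∀ j ∈ (range P.m).filter (fun j => ¬ HasScale P.Q P.g j S),
      (1 / (2 * P.L j : ℝ)) * (P.badOff j S).card ≤ (S.card : ℝ) / P.Q := by
    intro j hj
    have hno := (Finset.mem_filter.1 hj).2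
    have h := bad_offsets (P.L_pos j) (δ := P.Q * P.g j) (G := P.g (j + 1)) hbig
      (P.g_succ j).ge (fun i hi i' hi' => by
        by_contra hc
        push Not at hc
        exact hno ⟨i, hi, i', hi', hc.1, hc.2⟩)
      (P.badOff j S) (fun r hr => P.mem_badOff.1 hr)
    have h2 : (P.badOff j S).card ≤ 2 * (P.Q * P.g j) * (P.Q * S.card) :=
      h.trans (Nat.mul_le_mul_left _ (by rw [sq]; exact Nat.mul_le_mul_right _ hbig))
    have hg : (0 : ℝ) < P.g j := by exact_mod_cast P.g_pos j
    have hQ0 : (0 : ℝ) < P.Q := by exact_mod_cast (lt_of_lt_of_le (by norm_num) P.Q_ge : 0 < P.Q)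
    have h3 : ((P.badOff j S).card : ℝ) ≤ 2 * ((P.Q : ℝ) * P.g j) * (P.Q * S.card) := by
      exact_mod_cast h2
    rw [L, div_mul_eq_mul_div, one_mul, Nat.cast_mul, Nat.cast_pow,
      div_le_div_iff₀ (by positivity) hQ0]
    calc ((P.badOff j S).card : ℝ) * P.Q
        ≤ 2 * ((P.Q : ℝ) * P.g j) * (P.Q * S.card) * P.Q :=
          mul_le_mul_of_nonneg_right h3 hQ0.le
      _ = _ := by ring
  rw [← Finset.sum_filter_add_sum_filter_not (range P.m) (fun j => HasScale P.Q P.g j S)]
  have h1 : ∑ j ∈ J, (1 / (2 * P.L j : ℝ)) * (P.badOff j S).card ≤ (S.card : ℝ) / P.k := by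
    refine (Finset.sum_le_sum fun j _ => hone j).trans ?_
    rw [Finset.sum_const, nsmul_one, le_div_iff₀ hk0]
    exact_mod_cast hJc
  have h2 : ∑ j ∈ (range P.m).filter (fun j => ¬ HasScale P.Q P.g j S),
      (1 / (2 * P.L j : ℝ)) * (P.badOff j S).card ≤ (S.card : ℝ) / P.k := by
    refine (Finset.sum_le_card_nsmul _ _ _ hrest).trans ?_
    rw [nsmul_eq_mul, hQ]
    have hc : (((range P.m).filter (fun j => ¬ HasScale P.Q P.g j S)).card : ℝ) ≤ P.m := by
      exact_mod_cast (Finset.card_filter_le _ _).trans_eq (Finset.card_range _)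
    have hm0 : (0 : ℝ) < P.m := by exact_mod_cast P.hm
    calc (((range P.m).filter (fun j => ¬ HasScale P.Q P.g j S)).card : ℝ) * (S.card / (P.m * P.k))
        ≤ P.m * (S.card / (P.m * P.k)) := mul_le_mul_of_nonneg_right hc (by positivity)
      _ = _ := by field_simp
  rw [show 2 * (S.card : ℝ) / P.k = S.card / P.k + S.card / P.k by ring]
  exact add_le_add h1 h2

lemma cut_le {f : Finset (Fin P.n) → ℝ} (hf : Zo f) : P.lhs f ≤ P.rhs f := by
  classical
  set c := coef half f with hc
  set X := fun j => ∑ a ∈ range (P.n / P.H j + 1),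
    (mv f (act (stepUp P.n (P.L j) (P.H j) a)) + mv f (act (stepDown P.n (P.L j) (P.H j) a))) with hX
  have hj : ∀ j, (1 / (2 * P.L j : ℝ)) * ∑ r ∈ range (2 * P.L j), mv f (act (P.pi j r)) ≤
      2 * (P.Q : ℝ) * X j +
        4 * ((1 / (2 * P.L j : ℝ)) * ∑ S, ((P.badOff j S).card : ℝ) * c S ^ 2) := by
    intro j
    have h0 : (0 : ℝ) < P.L j := by exact_mod_cast P.L_pos j
    have h1 : ∀ r ∈ range (2 * P.L j), mv f (act (P.pi j r)) ≤ 2 * (P.Q : ℝ) * X j +
        4 * ∑ S ∈ Finset.univ.filter (fun S => r ∈ P.badOff j S), c S ^ 2 := by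
      intro r hr
      rw [Finset.mem_range] at hr
      rw [pi, dif_pos hr]
      refine (mv_sw_le (P.L_pos j) hr hf (P.three_L_le j) (Q := P.Q)).trans_eq ?_
      congr 3
      exact Finset.filter_congr fun S _ => by rw [P.mem_badOff]; simp [hr]
    refine (mul_le_mul_of_nonneg_left (Finset.sum_le_sum h1) (by positivity)).trans_eq ?_
    rw [Finset.sum_add_distrib, Finset.sum_const, Finset.card_range, nsmul_eq_mul, ← Finset.mul_sum,
      mul_add, Nat.cast_mul, Nat.cast_ofNat]
    congr 1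
    · field_simp
    · rw [mul_left_comm]
      congr 2
      simp only [Finset.sum_filter]
      rw [Finset.sum_comm]
      refine Finset.sum_congr rfl fun S _ => ?_
      rw [← Finset.sum_filter, Finset.sum_const, nsmul_eq_mul]
      congr 3
      ext r
      rw [Finset.mem_filter, P.mem_badOff, Finset.mem_range]
      tauto
  refine (Finset.sum_le_sum fun j _ => hj j).trans ?_
  rw [Finset.sum_add_distrib, ← Finset.mul_sum, ← Finset.mul_sum]
  unfold rhs
  rw [add_assoc]
  refine add_le_add le_rfl ?_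
  have hswap : ∑ j ∈ range P.m, (1 / (2 * P.L j : ℝ)) * ∑ S, ((P.badOff j S).card : ℝ) * c S ^ 2 =
      ∑ S, (∑ j ∈ range P.m, (1 / (2 * P.L j : ℝ)) * (P.badOff j S).card) * c S ^ 2 := by
    simp only [Finset.mul_sum, Finset.sum_mul]
    rw [Finset.sum_comm]
    exact Finset.sum_congr rfl fun S _ => Finset.sum_congr rfl fun j _ => by ring
  have hcount : ∑ S, (∑ j ∈ range P.m, (1 / (2 * P.L j : ℝ)) * (P.badOff j S).card) * c S ^ 2 ≤
      (2 / (P.k : ℝ)) * ∑ S, (S.card : ℝ) * c S ^ 2 +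
        (P.m : ℝ) * ∑ b ∈ range (P.n / P.w),
          ∑ S ∈ Finset.univ.filter (fun S => P.fewIn S b), c S ^ 2 := by
    refine (Finset.sum_le_sum fun S _ =>
      mul_le_mul_of_nonneg_right (P.count_set S) (sq_nonneg _)).trans_eq ?_
    simp only [add_mul, Finset.sum_add_distrib]
    congr 1
    · rw [Finset.mul_sum]
      exact Finset.sum_congr rfl fun S _ => by ring
    · rw [Finset.mul_sum]
      simp only [Finset.sum_filter]
      simp only [Finset.mul_sum]
      rw [Finset.sum_comm (s := range (P.n / P.w))]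
      refine Finset.sum_congr rfl fun S _ => ?_
      rw [Finset.card_filter, Nat.cast_sum, Finset.mul_sum, Finset.sum_mul]
      refine Finset.sum_congr rfl fun b _ => ?_
      split_ifs <;> simp
  have hwin : ∀ b ∈ range (P.n / P.w),
      ∑ S ∈ Finset.univ.filter (fun S => P.fewIn S b), c S ^ 2 ≤
      (3 * (5 : ℝ) ^ P.k / P.u) * ∑ e ∈ window P.n P.w b, mv f (flipAt e) +
        (1 / (P.u : ℝ) ^ 2) * ∑ s ∈ range (P.u ^ 4), mv f (act (P.wrot b s)) := by
    intro b hb
    rw [Finset.mem_range] at hb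
    obtain ⟨hs1, hs2⟩ := P.hi_spec hb
    have hu4 : P.u ^ 4 < P.w := Nat.pow_lt_pow_right (by have := P.u_ge; omega) (by norm_num)
    refine (le_of_eq ?_).trans (windowMass_le hf (window P.n P.w b) P.k
      (le_trans (by norm_num) P.u_ge) (P.wrot b) ?_ ?_)
    · exact Finset.sum_congr (Finset.filter_congr fun S _ => Iff.rfl) fun _ _ => rfl
    · intro s _ i hi
      rw [P.mem_window_iff hb] at hi
      exact rot_out (by omega)
    · intro e he s hs s' hs' heq
      rw [P.mem_window_iff hb] at he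
      have h3 : (b + 1) * P.w = b * P.w + P.w := by ring
      have h4 := congrArg Fin.val heq
      rw [wrot, wrot, rot_val, rot_val, rotNat, rotNat] at h4
      split_ifs at h4 <;> omega
  have hI := sum_mv_flip hf
  have hfib : ∑ b ∈ range (P.n / P.w), ∑ e ∈ window P.n P.w b, mv f (flipAt e) =
      ∑ e, mv f (flipAt e) := by
    unfold window
    exact Finset.sum_fiberwise_of_maps_to
      (fun e _ => Finset.mem_range.2 (win_lt P.w_pos P.w_le _)) _
  rw [hswap]
  refine (mul_le_mul_of_nonneg_left (hcount.trans (add_le_add le_rfl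
    (mul_le_mul_of_nonneg_left (Finset.sum_le_sum hwin) (Nat.cast_nonneg _)))) (by norm_num)).trans ?_
  rw [Finset.sum_add_distrib, ← Finset.mul_sum, ← Finset.mul_sum, hfib]
  have hI0 : 0 ≤ ∑ e, mv f (flipAt e) := Finset.sum_nonneg fun e _ => mv_nonneg _ _
  have hk0 : (0 : ℝ) < P.k := by exact_mod_cast P.hk
  have hu0 : (0 : ℝ) < P.u := by exact_mod_cast (lt_of_lt_of_le (by norm_num) P.u_ge : 0 < P.u)
  have hcoef : 4 * (P.m : ℝ) * (3 * 5 ^ P.k / P.u) ≤ 12 / P.k := by
    have h : (5 : ℝ) ^ P.k * (P.m * P.k) ≤ P.u := by exact_mod_cast P.hu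
    rw [← mul_div_assoc, div_le_div_iff₀ hu0 hk0]
    nlinarith
  have h12 := mul_le_mul_of_nonneg_right hcoef hI0
  have e2 : (2 / (P.k : ℝ)) * (4 * ∑ S, (S.card : ℝ) * c S ^ 2) =
      (2 / (P.k : ℝ)) * ∑ e, mv f (flipAt e) := by rw [hI]
  have e3 : (14 / (P.k : ℝ)) * ∑ e, mv f (flipAt e) =
      (2 / (P.k : ℝ)) * ∑ e, mv f (flipAt e) + (12 / (P.k : ℝ)) * ∑ e, mv f (flipAt e) := by ring
  have e4 : 4 * ((P.m : ℝ) * (1 / (P.u : ℝ) ^ 2 *
        ∑ b ∈ range (P.n / P.w), ∑ s ∈ range (P.u ^ 4), mv f (act (P.wrot b s)))) =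
      4 * (P.m : ℝ) / (P.u : ℝ) ^ 2 *
        ∑ b ∈ range (P.n / P.w), ∑ s ∈ range (P.u ^ 4), mv f (act (P.wrot b s)) := by ring
  linarith

end Par

/-- A real function moves like a nonnegative combination of zero-one functions. -/
lemma layer {ι : Type*} [DecidableEq ι] [Fintype ι] (φ : Finset ι → ℝ) :
    ∃ (N : ℕ) (a : Fin N → ℝ) (f : Fin N → Finset ι → ℝ),
      (∀ l, 0 ≤ a l) ∧ (∀ l, Zo (f l)) ∧ ∀ x y, |φ x - φ y| = ∑ l, a l * |f l x - f l y| := by
  suffices ∀ t : ℕ, ∀ φ : Finset ι → ℝ, (Finset.univ.image φ).card ≤ t →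
      ∃ (N : ℕ) (a : Fin N → ℝ) (f : Fin N → Finset ι → ℝ),
        (∀ l, 0 ≤ a l) ∧ (∀ l, Zo (f l)) ∧ ∀ x y, |φ x - φ y| = ∑ l, a l * |f l x - f l y| from
    this _ φ le_rfl
  intro t
  induction t with
  | zero =>
    intro φ h
    exact absurd h (by
      have := Finset.card_pos.2 (Finset.univ_nonempty.image φ)
      omega)
  | succ t ih =>
    intro φ h
    set s := Finset.univ.image φ with hs
    have hne : s.Nonempty := Finset.univ_nonempty.image φ
    set M := s.max' hne with hM
    rcases (s.erase M).eq_empty_or_nonempty with h0 | h1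
    · refine ⟨0, Fin.elim0, Fin.elim0, fun l => l.elim0, fun l => l.elim0, fun x y => ?_⟩
      have hconst : ∀ x, φ x = M := fun x => by
        by_contra hc
        exact Finset.notMem_empty (φ x)
          (h0 ▸ Finset.mem_erase.2 ⟨hc, Finset.mem_image_of_mem φ (Finset.mem_univ x)⟩)
      simp [hconst]
    · set M' := (s.erase M).max' h1 with hM'
      have hM'lt : M' < M := by
        obtain ⟨h2, h3⟩ := Finset.mem_erase.1 ((s.erase M).max'_mem h1)
        exact lt_of_le_of_ne (s.le_max' _ h3) h2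
      have hcases : ∀ x, φ x = M ∨ φ x ≤ M' := fun x => by
        by_cases hx : φ x = M
        · exact Or.inl hx
        · exact Or.inr ((s.erase M).le_max' _
            (Finset.mem_erase.2 ⟨hx, Finset.mem_image_of_mem φ (Finset.mem_univ x)⟩))
      have hlt : (Finset.univ.image fun x => min (φ x) M').card ≤ t := by
        have hsub : (Finset.univ.image fun x => min (φ x) M') ⊆ s.erase M := by
          intro v hv
          obtain ⟨x, -, rfl⟩ := Finset.mem_image.1 hv
          rcases hcases x with hx | hx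
          · rw [hx, min_eq_right hM'lt.le]; exact (s.erase M).max'_mem h1
          · rw [min_eq_left hx]
            exact Finset.mem_erase.2 ⟨(lt_of_le_of_lt hx hM'lt).ne,
              Finset.mem_image_of_mem φ (Finset.mem_univ x)⟩
        have := Finset.card_le_card hsub
        rw [Finset.card_erase_of_mem (s.max'_mem hne)] at this
        have := hne.card_pos
        omega
      obtain ⟨N, a, f, ha, hf, he⟩ := ih _ hlt
      refine ⟨N + 1, Fin.cons (M - M') a, Fin.cons (fun x => if φ x = M then 1 else 0) f,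
        fun l => ?_, fun l => ?_, fun x y => ?_⟩
      · refine Fin.cases ?_ ?_ l
        · simpa using hM'lt.le
        · simpa using ha
      · refine Fin.cases ?_ ?_ l
        · intro x; simp only [Fin.cons_zero]; by_cases hx : φ x = M <;> simp [hx]
        · simpa using hf
      · rw [Fin.sum_univ_succ]
        simp only [Fin.cons_zero, Fin.cons_succ]
        rw [← he]
        rcases hcases x with hx | hx <;> rcases hcases y with hy | hy
        · simp [hx, hy]
        · have : φ y ≠ M := (lt_of_le_of_lt hy hM'lt).ne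
          simp only [hx, this, if_true, if_false, min_eq_right hM'lt.le, min_eq_left hy]
          rw [abs_of_nonneg (by linarith), abs_of_nonneg (by norm_num : (0 : ℝ) ≤ 1 - 0),
            abs_of_nonneg (by linarith)]
          ring
        · have : φ x ≠ M := (lt_of_le_of_lt hx hM'lt).ne
          simp only [hy, this, if_true, if_false, min_eq_left hx, min_eq_right hM'lt.le]
          rw [abs_of_nonpos (by linarith), abs_of_nonpos (by norm_num : (0 : ℝ) - 1 ≤ 0),
            abs_of_nonpos (by linarith)]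
          ring
        · have h3 : φ x ≠ M := (lt_of_le_of_lt hx hM'lt).ne
          have h4 : φ y ≠ M := (lt_of_le_of_lt hy hM'lt).ne
          simp [h3, h4, min_eq_left hx, min_eq_left hy]

lemma mv_layer {ι : Type*} [DecidableEq ι] [Fintype ι] {φ : Finset ι → ℝ} {N : ℕ} {a : Fin N → ℝ}
    {f : Fin N → Finset ι → ℝ} (he : ∀ x y, |φ x - φ y| = ∑ l, a l * |f l x - f l y|)
    (τ : Finset ι → Finset ι) : mv φ τ = ∑ l, a l * mv (f l) τ := by
  unfold mv ex
  simp only [he]
  rw [Vale.Agent.P063.avg_sum]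
  exact Finset.sum_congr rfl fun l _ => Vale.Agent.P063.avg_mul_left _ _ _ _ _

namespace Par

variable (P : Par)

lemma lhs_lin {φ : Finset (Fin P.n) → ℝ} {N : ℕ} {a : Fin N → ℝ}
    {f : Fin N → Finset (Fin P.n) → ℝ} (h : ∀ τ, mv φ τ = ∑ l, a l * mv (f l) τ) :
    P.lhs φ = ∑ l, a l * P.lhs (f l) := by
  unfold lhs
  simp only [h, Finset.mul_sum]
  symm
  rw [Finset.sum_comm]
  refine Finset.sum_congr rfl fun j _ => ?_
  rw [Finset.sum_comm]
  exact Finset.sum_congr rfl fun r _ => Finset.sum_congr rfl fun l _ => by ring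

lemma rhs_lin {φ : Finset (Fin P.n) → ℝ} {N : ℕ} {a : Fin N → ℝ}
    {f : Fin N → Finset (Fin P.n) → ℝ} (h : ∀ τ, mv φ τ = ∑ l, a l * mv (f l) τ) :
    P.rhs φ = ∑ l, a l * P.rhs (f l) := by
  unfold rhs
  simp only [h, mul_add, Finset.mul_sum, Finset.sum_add_distrib]
  congr 1
  · congr 1
    · congr 1 <;>
      · symm
        rw [Finset.sum_comm]
        refine Finset.sum_congr rfl fun j _ => ?_
        rw [Finset.sum_comm]
        exact Finset.sum_congr rfl fun r _ => Finset.sum_congr rfl fun l _ => by ring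
    · symm
      rw [Finset.sum_comm]
      exact Finset.sum_congr rfl fun i _ => Finset.sum_congr rfl fun l _ => by ring
  · symm
    rw [Finset.sum_comm]
    refine Finset.sum_congr rfl fun j _ => ?_
    rw [Finset.sum_comm]
    exact Finset.sum_congr rfl fun r _ => Finset.sum_congr rfl fun l _ => by ring

/-- The inequality for every real function. -/
lemma real_le (φ : Finset (Fin P.n) → ℝ) : P.lhs φ ≤ P.rhs φ := by
  obtain ⟨N, a, f, ha, hf, he⟩ := layer φ
  rw [P.lhs_lin (mv_layer he), P.rhs_lin (mv_layer he)]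
  exact Finset.sum_le_sum fun l _ => mul_le_mul_of_nonneg_left (P.cut_le (hf l)) (ha l)

end Par

end Vale.Agent.P238
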