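import Mathlib.Logic.Equiv.Fin.Basic
import Mathlib.Data.Fintype.Fin
import Mathlib.Tactic.Linarith
import Mathlib.Tactic.Ring

/-!
Rotations of intervals and swaps of adjacent blocks.
-/

namespace Vale.Agent.P238

/-- Rotation of the interval `[lo, hi)` by `s`, on natural numbers. -/
def rotNat (lo hi s i : ℕ) : ℕ :=
  if lo ≤ i ∧ i < hi then (if i + s < hi then i + s else i + s - (hi - lo)) else i

lemma rotNat_lt {lo hi s i n : ℕ} (h : hi ≤ n) (hs : s ≤ hi - lo) (hi' : i < n) :
    rotNat lo hi s i < n := by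
  unfold rotNat; split_ifs <;> omega

lemma rotNat_inv {lo hi s i : ℕ} (hs : s ≤ hi - lo) :
    rotNat lo hi (hi - lo - s) (rotNat lo hi s i) = i := by
  unfold rotNat; split_ifs <;> omega

/-- Rotation of the interval `[lo, hi)` of `Fin n` by `s`, the interval and the shift clipped. -/
def rot (n lo hi s : ℕ) : Equiv.Perm (Fin n) where
  toFun i := ⟨rotNat lo (min hi n) (min s (min hi n - lo)) i,
    rotNat_lt (Nat.min_le_right _ _) (Nat.min_le_right _ _) i.2⟩
  invFun i := ⟨rotNat lo (min hi n) (min hi n - lo - min s (min hi n - lo)) i,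
    rotNat_lt (Nat.min_le_right _ _) (Nat.sub_le _ _) i.2⟩
  left_inv i := Fin.ext (rotNat_inv (Nat.min_le_right _ _))
  right_inv i := Fin.ext (by
    have h := rotNat_inv (lo := lo) (hi := min hi n)
      (s := min hi n - lo - min s (min hi n - lo)) (i := (i : ℕ)) (Nat.sub_le _ _)
    rwa [Nat.sub_sub_self (Nat.min_le_right _ _)] at h)

lemma rot_val (n lo hi s : ℕ) (i : Fin n) :
    (rot n lo hi s i : ℕ) = rotNat lo (min hi n) (min s (min hi n - lo)) i := rfl

lemma rot_out {n lo hi s : ℕ} {i : Fin n} (h : (i : ℕ) < lo ∨ hi ≤ (i : ℕ)) :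
    rot n lo hi s i = i := by
  apply Fin.ext
  rw [rot_val, rotNat]
  split_ifs <;> omega

/-- The index of the block of length `L` containing `i`, for the offset `r`. -/
def blk (L r i : ℕ) : ℕ := (i + 2 * L - r) / L

/-- The end of the pair of blocks containing `i`. -/
def pend (L r i : ℕ) : ℕ := r + 2 * L * (blk L r i / 2)

/-- The swap of all pairs of adjacent blocks which end no later than `N`. -/
def swNat (L r N i : ℕ) : ℕ :=
  if 2 ≤ blk L r i ∧ pend L r i ≤ N then (if blk L r i % 2 = 0 then i + L else i - L) else i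

lemma blk_spec {L r i : ℕ} (hL : 0 < L) :
    (L * blk L r i ≤ i + 2 * L - r) ∧ i + 2 * L - r < L * blk L r i + L := by
  unfold blk
  have h1 := Nat.div_add_mod (i + 2 * L - r) L
  have h2 := Nat.mod_lt (i + 2 * L - r) hL
  omega

lemma blk_split (L r i : ℕ) :
    L * blk L r i = 2 * L * (blk L r i / 2) + L * (blk L r i % 2) := by
  conv_lhs => rw [← Nat.div_add_mod (blk L r i) 2]
  ring

lemma pend_even {L r i : ℕ} (hL : 0 < L) (hr : r < 2 * L) (h : blk L r i % 2 = 0) :
    i + L < pend L r i ∧ pend L r i ≤ i + 2 * L := by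
  have h1 := blk_spec (r := r) (i := i) hL
  have h2 := blk_split L r i
  rw [h, Nat.mul_zero] at h2
  unfold pend
  omega

lemma pend_odd {L r i : ℕ} (hL : 0 < L) (hr : r < 2 * L) (h : blk L r i % 2 = 1) :
    i < pend L r i ∧ pend L r i ≤ i + L := by
  have h1 := blk_spec (r := r) (i := i) hL
  have h2 := blk_split L r i
  rw [h, Nat.mul_one] at h2
  unfold pend
  omega

lemma pend_bounds {L r i : ℕ} (hL : 0 < L) (hr : r < 2 * L) :
    i < pend L r i ∧ pend L r i ≤ i + 2 * L := by
  rcases Nat.mod_two_eq_zero_or_one (blk L r i) with h | h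
  · have := pend_even hL hr h; omega
  · have := pend_odd hL hr h; omega

lemma pend_ge {L r i : ℕ} (h : 2 ≤ blk L r i) : r + 2 * L ≤ pend L r i := by
  have : 1 ≤ blk L r i / 2 := by omega
  unfold pend
  nlinarith

lemma blk_add {L r i : ℕ} (hL : 0 < L) (hr : r < 2 * L) : blk L r (i + L) = blk L r i + 1 := by
  unfold blk
  rw [show i + L + 2 * L - r = i + 2 * L - r + L by omega, Nat.add_div_right _ hL]

lemma blk_sub {L r i : ℕ} (hL : 0 < L) (hr : r < 2 * L) (hi : L ≤ i) :
    blk L r (i - L) + 1 = blk L r i := by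
  rw [← blk_add hL hr, Nat.sub_add_cancel hi]

lemma le_of_odd {L r i : ℕ} (hL : 0 < L) (hr : r < 2 * L) (h2 : 2 ≤ blk L r i)
    (h : blk L r i % 2 = 1) : L ≤ i := by
  have := pend_odd hL hr h
  have := pend_ge h2
  omega

lemma swNat_lt {L r N n i : ℕ} (hL : 0 < L) (hr : r < 2 * L) (hN : N ≤ n) (hi : i < n) :
    swNat L r N i < n := by
  unfold swNat
  split_ifs with h1 h2
  · have := pend_even hL hr h2; omega
  · omega
  · exact hi

lemma swNat_invol {L r N i : ℕ} (hL : 0 < L) (hr : r < 2 * L) :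
    swNat L r N (swNat L r N i) = i := by
  by_cases h1 : 2 ≤ blk L r i ∧ pend L r i ≤ N
  · rcases Nat.mod_two_eq_zero_or_one (blk L r i) with h2 | h2
    · have e : swNat L r N i = i + L := by rw [swNat, if_pos h1, if_pos h2]
      have hb := blk_add (r := r) (i := i) hL hr
      have hp : pend L r (i + L) = pend L r i := by
        unfold pend; rw [hb]; congr 2; omega
      rw [e, swNat, if_pos ⟨by omega, hp ▸ h1.2⟩, if_neg (by omega)]
      omega
    · have e : swNat L r N i = i - L := by rw [swNat, if_pos h1, if_neg (by omega)]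
      have hle := le_of_odd hL hr h1.1 h2
      have hb := blk_sub (r := r) hL hr hle
      have hp : pend L r (i - L) = pend L r i := by
        unfold pend; congr 2; omega
      rw [e, swNat, if_pos ⟨by omega, hp ▸ h1.2⟩, if_pos (by omega)]
      omega
  · have e : swNat L r N i = i := by rw [swNat, if_neg h1]
    rw [e, e]

lemma blk_eq_dist {L r i i' : ℕ} (hL : 0 < L) (hr : r < 2 * L) (h : blk L r i = blk L r i') :
    i < i' + L ∧ i' < i + L := by
  have h1 := blk_spec (r := r) (i := i) hL
  have h2 := blk_spec (r := r) (i := i') hL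
  rw [h] at h1
  omega

/-- The swap of all pairs of adjacent blocks of `Fin n` which end no later than `N`. -/
def sw (n : ℕ) {L r : ℕ} (hL : 0 < L) (hr : r < 2 * L) (N : ℕ) : Equiv.Perm (Fin n) where
  toFun i := ⟨swNat L r (min N n) i, swNat_lt hL hr (Nat.min_le_right _ _) i.2⟩
  invFun i := ⟨swNat L r (min N n) i, swNat_lt hL hr (Nat.min_le_right _ _) i.2⟩
  left_inv _ := Fin.ext (swNat_invol hL hr)
  right_inv _ := Fin.ext (swNat_invol hL hr)

lemma sw_val {n L r : ℕ} (hL : 0 < L) (hr : r < 2 * L) (N : ℕ) (i : Fin n) :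
    (sw n hL hr N i : ℕ) = swNat L r (min N n) i := rfl

lemma sw_sw {n L r : ℕ} (hL : 0 < L) (hr : r < 2 * L) (N : ℕ) (i : Fin n) :
    sw n hL hr N (sw n hL hr N i) = i :=
  Fin.ext (swNat_invol hL hr)

lemma swNat_near {L r N i : ℕ} : swNat L r N i ≤ i + L ∧ i ≤ swNat L r N i + L := by
  unfold swNat; split_ifs <;> omega

end Vale.Agent.P238
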