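import Vale.Agent.P238.Fourier
import Vale.Agent.P238.Swap
import Mathlib.Data.List.OfFn
import Mathlib.Data.List.NodupEquivFin
import Mathlib.Data.Finset.Sort
import Mathlib.Data.Nat.Choose.Sum

/-!
Edit distance: upper bounds for flips and rotations, and a lower bound for block swaps.
-/

namespace Vale.Agent.P238

open Finset

/-- One insertion, deletion or substitution of a single symbol. -/
def OneEdit (x y : List Bool) : Prop :=
  ∃ (u v : List Bool) (a b : Bool),
    (x = u ++ v ∧ y = u ++ a :: v) ∨ (x = u ++ a :: v ∧ y = u ++ v) ∨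
      (x = u ++ a :: v ∧ y = u ++ b :: v)

/-- `y` arises from `x` by `k` single-symbol edits. -/
def Edits : ℕ → List Bool → List Bool → Prop
  | 0, x, y => x = y
  | k + 1, x, y => ∃ z, OneEdit x z ∧ Edits k z y

/-- The edit distance: the least number of single-symbol edits transforming `x` into `y`. -/
noncomputable def editDist (x y : List Bool) : ℕ := sInf {k | Edits k x y}

lemma OneEdit.symm {x y : List Bool} (h : OneEdit x y) : OneEdit y x := by
  obtain ⟨u, v, a, b, ⟨h1, h2⟩ | ⟨h1, h2⟩ | ⟨h1, h2⟩⟩ := h
  · exact ⟨u, v, a, b, Or.inr (Or.inl ⟨h2, h1⟩)⟩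
  · exact ⟨u, v, a, b, Or.inl ⟨h2, h1⟩⟩
  · exact ⟨u, v, b, a, Or.inr (Or.inr ⟨h2, h1⟩)⟩

lemma OneEdit.cons {x y : List Bool} (h : OneEdit x y) (c : Bool) : OneEdit (c :: x) (c :: y) := by
  obtain ⟨u, v, a, b, ⟨rfl, rfl⟩ | ⟨rfl, rfl⟩ | ⟨rfl, rfl⟩⟩ := h
  · exact ⟨c :: u, v, a, b, Or.inl ⟨rfl, rfl⟩⟩
  · exact ⟨c :: u, v, a, b, Or.inr (Or.inl ⟨rfl, rfl⟩)⟩
  · exact ⟨c :: u, v, a, b, Or.inr (Or.inr ⟨rfl, rfl⟩)⟩

lemma Edits.trans : ∀ {j k : ℕ} {x y z : List Bool}, Edits j x y → Edits k y z →
    Edits (j + k) x z := by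
  intro j
  induction j with
  | zero => intro k x y z h1 h2; cases h1; rwa [Nat.zero_add]
  | succ j ih =>
    intro k x y z h1 h2
    obtain ⟨w, hw, h⟩ := h1
    rw [Nat.succ_add]
    exact ⟨w, hw, ih h h2⟩

lemma Edits.symm : ∀ {k : ℕ} {x y : List Bool}, Edits k x y → Edits k y x := by
  intro k
  induction k with
  | zero => intro x y h; exact (Eq.symm h : y = x)
  | succ k ih =>
    intro x y h
    obtain ⟨z, hz, h⟩ := h
    exact (ih h).trans (k := 1) ⟨x, hz.symm, rfl⟩

lemma Edits.cons : ∀ {k : ℕ} {x y : List Bool}, Edits k x y → ∀ c, Edits k (c :: x) (c :: y) := by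
  intro k
  induction k with
  | zero => intro x y h c; cases h; exact rfl
  | succ k ih =>
    intro x y h c
    obtain ⟨z, hz, h⟩ := h
    exact ⟨c :: z, hz.cons c, ih h c⟩

lemma edits_of_sublist {z x : List Bool} (h : z.Sublist x) :
    Edits (x.length - z.length) x z := by
  induction h with
  | slnil => exact rfl
  | @cons z x a h ih =>
    have := h.length_le
    rw [List.length_cons, show x.length + 1 - z.length = (x.length - z.length) + 1 by omega]
    exact ⟨x, ⟨[], x, a, a, Or.inr (Or.inl ⟨rfl, rfl⟩)⟩, ih⟩
  | @cons_cons z x a h ih =>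
    rw [List.length_cons, List.length_cons, Nat.succ_sub_succ_eq_sub]
    exact ih.cons a

lemma editDist_le_of_sublist {z x y : List Bool} (hx : z.Sublist x) (hy : z.Sublist y) :
    editDist x y ≤ (x.length - z.length) + (y.length - z.length) :=
  Nat.sInf_le ((edits_of_sublist hx).trans (edits_of_sublist hy).symm)

lemma edits_editDist (x y : List Bool) : Edits (editDist x y) x y :=
  Nat.sInf_mem (s := {k | Edits k x y})
    ⟨_, (edits_of_sublist (List.nil_sublist x)).trans (edits_of_sublist (List.nil_sublist y)).symm⟩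

lemma common_of_edits : ∀ {k : ℕ} {x y : List Bool}, Edits k x y →
    ∃ z : List Bool, z.Sublist x ∧ z.Sublist y ∧ x.length ≤ z.length + k ∧
      y.length ≤ z.length + k := by
  intro k
  induction k with
  | zero =>
    intro x y h
    cases h
    exact ⟨x, List.Sublist.refl x, List.Sublist.refl x, by omega, by omega⟩
  | succ k ih =>
    intro x y h
    obtain ⟨x', hx, h⟩ := h
    obtain ⟨z, hz1, hz2, hl1, hl2⟩ := ih h
    have key : ∀ (u v : List Bool) (a : Bool), z.Sublist (u ++ a :: v) →
        ∃ z' : List Bool, z'.Sublist (u ++ v) ∧ z'.Sublist z ∧ z.length ≤ z'.length + 1 := by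
      intro u v a hs
      obtain ⟨z1, z2, rfl, h1, h2⟩ := List.sublist_append_iff.1 hs
      rcases List.sublist_cons_iff.1 h2 with h3 | ⟨t, rfl, h3⟩
      · exact ⟨z1 ++ z2, h1.append h3, List.Sublist.refl _, by omega⟩
      · refine ⟨z1 ++ t, h1.append h3, (List.Sublist.refl z1).append (List.sublist_cons_self a t), ?_⟩
        simp only [List.length_append, List.length_cons]
        omega
    have hins : ∀ (u v : List Bool) (a : Bool), (u ++ v).Sublist (u ++ a :: v) := fun u v a =>
      (List.Sublist.refl u).append (List.sublist_cons_self a v)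
    obtain ⟨u, v, a, b, ⟨rfl, rfl⟩ | ⟨rfl, rfl⟩ | ⟨rfl, rfl⟩⟩ := hx
    · obtain ⟨z', h1, h2, h3⟩ := key u v a hz1
      refine ⟨z', h1, h2.trans hz2, ?_, by omega⟩
      simp only [List.length_append, List.length_cons] at hl1 ⊢
      omega
    · refine ⟨z, hz1.trans (hins u v a), hz2, ?_, by omega⟩
      simp only [List.length_append, List.length_cons] at hl1 ⊢
      omega
    · obtain ⟨z', h1, h2, h3⟩ := key u v b hz1
      refine ⟨z', h1.trans (hins u v a), h2.trans hz2, ?_, by omega⟩
      simp only [List.length_append, List.length_cons] at hl1 ⊢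
      omega

variable {n : ℕ}

/-- The binary word of a point of the cube. -/
def word (z : Finset (Fin n)) : List Bool := List.ofFn (fun i => decide (i ∈ z))

lemma editDist_le_of_match {f g : Fin n → Bool} {l : ℕ} {α β : Fin l → Fin n}
    (hα : StrictMono α) (hβ : StrictMono β) (h : ∀ i, f (α i) = g (β i)) :
    editDist (List.ofFn f) (List.ofFn g) ≤ 2 * (n - l) := by
  have key : ∀ (f : Fin n → Bool) (α : Fin l → Fin n), StrictMono α →
      (List.ofFn (fun i => f (α i))).Sublist (List.ofFn f) := by
    intro f α hα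
    rw [List.sublist_iff_exists_fin_orderEmbedding_get_eq]
    refine ⟨OrderEmbedding.ofStrictMono
      (fun i => Fin.cast List.length_ofFn.symm (α (Fin.cast List.length_ofFn i)))
      (fun a b hab => hα hab), fun i => ?_⟩
    simp only [List.get_ofFn]
    rfl
  have h2 : (List.ofFn (fun i => f (α i))).Sublist (List.ofFn g) := by
    simp only [h]
    exact key g β hβ
  refine (editDist_le_of_sublist (key f α hα) h2).trans (le_of_eq ?_)
  simp only [List.length_ofFn]
  omega

lemma match_of_editDist {f g : Fin n → Bool} {e : ℕ}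
    (h : editDist (List.ofFn f) (List.ofFn g) ≤ e) :
    ∃ α β : Fin (n - e) → Fin n, StrictMono α ∧ StrictMono β ∧ ∀ i, f (α i) = g (β i) := by
  obtain ⟨z, h1, h2, hl, -⟩ := common_of_edits (edits_editDist (List.ofFn f) (List.ofFn g))
  rw [List.length_ofFn] at hl
  obtain ⟨a, ha⟩ := List.sublist_iff_exists_fin_orderEmbedding_get_eq.1 h1
  obtain ⟨b, hb⟩ := List.sublist_iff_exists_fin_orderEmbedding_get_eq.1 h2
  have hle : n - e ≤ z.length := by omega
  refine ⟨fun i => Fin.cast List.length_ofFn (a (Fin.castLE hle i)),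
    fun i => Fin.cast List.length_ofFn (b (Fin.castLE hle i)),
    fun i j hij => a.strictMono (show Fin.castLE hle i < Fin.castLE hle j from hij),
    fun i j hij => b.strictMono (show Fin.castLE hle i < Fin.castLE hle j from hij), fun i => ?_⟩
  have h3 := (ha (Fin.castLE hle i)).symm.trans (hb (Fin.castLE hle i))
  simp only [List.get_ofFn] at h3
  exact h3

lemma editDist_flip (i : Fin n) (z : Finset (Fin n)) :
    editDist (word z) (word (flipAt i z)) ≤ 1 := by
  refine Nat.sInf_le ⟨word (flipAt i z), ?_, rfl⟩
  have hlen : (i : ℕ) < (word z).length := by simp [word]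
  have e : word (flipAt i z) = (word z).set (i : ℕ) (!decide (i ∈ z)) := by
    refine List.ext_getElem (by simp [word]) fun j h1 h2 => ?_
    simp only [word, List.getElem_set, List.getElem_ofFn]
    by_cases h : (i : ℕ) = j
    · subst h; simp [mem_flipAt]
    · have : (⟨j, by simpa [word] using h1⟩ : Fin n) ≠ i := fun hh => h (congrArg Fin.val hh).symm
      simp [h, mem_flipAt, this]
  refine ⟨(word z).take i, (word z).drop ((i : ℕ) + 1), (word z)[(i : ℕ)], !decide (i ∈ z),
    Or.inr (Or.inr ⟨?_, ?_⟩)⟩
  · rw [List.cons_getElem_drop_succ, List.take_append_drop]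
  · rw [e]; exact List.set_eq_take_append_cons_drop.trans (if_pos hlen)

lemma editDist_act_of_match {σ : Equiv.Perm (Fin n)} {l : ℕ} {α β : Fin l → Fin n}
    (hα : StrictMono α) (hβ : StrictMono β) (h : ∀ i, σ (α i) = β i) (z : Finset (Fin n)) :
    editDist (word z) (word (act σ z)) ≤ 2 * (n - l) :=
  editDist_le_of_match hα hβ fun i => by simp [mem_act, ← h i]

lemma editDist_rot (lo hi s : ℕ) (z : Finset (Fin n)) :
    editDist (word z) (word (act (rot n lo hi s) z)) ≤ 2 * min s (min hi n - lo) := by
  set h' := min hi n with hh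
  set s' := min s (h' - lo) with hs
  have h1 : s' ≤ h' - lo := Nat.min_le_right _ _
  have h2 : h' ≤ n := Nat.min_le_right _ _
  have hb : ∀ i : Fin (n - s'), (i : ℕ) + s' < n := fun i => by have := i.2; omega
  refine (editDist_act_of_match (l := n - s')
    (α := fun i => ⟨if (i : ℕ) < h' - s' then i else i + s', by have := hb i; split_ifs <;> omega⟩)
    (β := fun i => ⟨if (i : ℕ) < lo then i else i + s', by have := hb i; split_ifs <;> omega⟩)
    ?_ ?_ ?_ z).trans (by omega)
  · intro i j hij
    have hij' : (i : ℕ) < j := hij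
    simp only [Fin.mk_lt_mk]
    split_ifs <;> omega
  · intro i j hij
    have hij' : (i : ℕ) < j := hij
    simp only [Fin.mk_lt_mk]
    split_ifs <;> omega
  · intro i
    apply Fin.ext
    simp only [rot_val, rotNat, ← hh, ← hs]
    split_ifs <;> omega

lemma editDist_rot' (lo hi s : ℕ) (z : Finset (Fin n)) :
    editDist (word z) (word (act (rot n lo hi s) z)) ≤
      2 * (min hi n - lo - min s (min hi n - lo)) := by
  set h' := min hi n with hh
  set s' := min s (h' - lo) with hs
  set d := h' - lo - s' with hd
  have h1 : s' ≤ h' - lo := Nat.min_le_right _ _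
  have h2 : h' ≤ n := Nat.min_le_right _ _
  have hb : ∀ i : Fin (n - d), (i : ℕ) + d < n := fun i => by have := i.2; omega
  refine (editDist_act_of_match (l := n - d)
    (α := fun i => ⟨if (i : ℕ) < lo then i else i + d, by have := hb i; split_ifs <;> omega⟩)
    (β := fun i => ⟨if (i : ℕ) < h' - d then i else i + d, by have := hb i; split_ifs <;> omega⟩)
    ?_ ?_ ?_ z).trans (by omega)
  · intro i j hij
    have hij' : (i : ℕ) < j := hij
    simp only [Fin.mk_lt_mk]
    split_ifs <;> omega
  · intro i j hij
    have hij' : (i : ℕ) < j := hij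
    simp only [Fin.mk_lt_mk]
    split_ifs <;> omega
  · intro i
    apply Fin.ext
    simp only [rot_val, rotNat, ← hh, ← hs]
    split_ifs <;> omega

lemma card_solutions_le {l : ℕ} (u v : Fin l → Fin n) (hu : Function.Injective u)
    (hv : Function.Injective v) (c : ℕ)
    (hc : 2 * c ≤ (Finset.univ.filter (fun i => u i ≠ v i)).card) :
    (Finset.univ.filter
      (fun z : Finset (Fin n) => ∀ i, (u i ∈ z ↔ v i ∈ z))).card ≤ 2 ^ (n - c) := by
  set N := Finset.univ.filter (fun i => u i ≠ v i) with hN
  set V := N.image (fun i => max (u i) (v i)) with hV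
  have hcV : c ≤ V.card := by
    have h1 : N.card ≤ V.card * 2 := by
      rw [← smul_eq_mul, ← Finset.sum_const]
      rw [Finset.card_eq_sum_card_image (fun i => max (u i) (v i)) N]
      refine Finset.sum_le_sum fun w _ => ?_
      have hsub : N.filter (fun i => max (u i) (v i) = w) ⊆
          Finset.univ.filter (fun i => u i = w) ∪ Finset.univ.filter (fun i => v i = w) := by
        intro i hi
        have h2 := (Finset.mem_filter.1 hi).2
        rcases max_choice (u i) (v i) with h | h <;> rw [h] at h2
        · exact Finset.mem_union_left _ (by simp [h2])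
        · exact Finset.mem_union_right _ (by simp [h2])
      refine (Finset.card_le_card hsub).trans ((Finset.card_union_le _ _).trans ?_)
      refine Nat.add_le_add (a := _) (b := 1) (c := _) (d := 1) ?_ ?_ <;>
        refine Finset.card_le_one.2 fun a ha b hb => ?_
      · exact hu ((Finset.mem_filter.1 ha).2.trans (Finset.mem_filter.1 hb).2.symm)
      · exact hv ((Finset.mem_filter.1 ha).2.trans (Finset.mem_filter.1 hb).2.symm)
    omega
  refine le_trans (Finset.card_le_card_of_injOn (fun z => z \ V)
    (t := (Finset.univ \ V).powerset) ?_ ?_) ?_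
  · intro z _
    rw [Finset.mem_coe, Finset.mem_powerset]
    exact Finset.sdiff_subset_sdiff (Finset.subset_univ z) (Finset.Subset.refl V)
  · intro z hz z' hz' heq
    rw [Finset.mem_coe, Finset.mem_filter] at hz hz'
    simp only at heq
    ext a
    induction a using WellFoundedLT.induction with
    | _ a ih =>
      by_cases ha : a ∈ V
      · obtain ⟨i, hi, hia⟩ := Finset.mem_image.1 ha
        have hne : u i ≠ v i := (Finset.mem_filter.1 hi).2
        rcases lt_or_gt_of_ne hne with h | h
        · rw [max_eq_right h.le] at hia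
          rw [← hia, ← hz.2 i, ← hz'.2 i]
          exact ih _ (hia ▸ h)
        · rw [max_eq_left h.le] at hia
          rw [← hia, hz.2 i, hz'.2 i]
          exact ih _ (hia ▸ h)
      · have := Finset.ext_iff.1 heq a
        simpa [ha] using this
  · rw [Finset.card_powerset, Finset.card_sdiff_of_subset (Finset.subset_univ V), Finset.card_univ,
      Fintype.card_fin]
    exact Nat.pow_le_pow_right (by norm_num) (by omega)

variable {L r : ℕ}

lemma card_fixed_matches {l : ℕ} (hL : 0 < L) (hr : r < 2 * L) {α β : Fin l → Fin n}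
    (hα : StrictMono α) (hβ : StrictMono β) :
    2 * (Finset.univ.filter (fun i => α i = sw n hL hr n (β i))).card ≤ n + 4 * L := by
  classical
  set R := Finset.univ.filter
    (fun v : Fin n => (2 ≤ blk L r v ∧ pend L r v ≤ n) ∧ blk L r v % 2 = 1) with hR
  set T := Finset.univ.filter (fun i => α i = sw n hL hr n (β i)) with hT
  have hswap : ∀ v : Fin n, (sw n hL hr n v : ℕ) = swNat L r n v := fun v => by
    rw [sw_val, Nat.min_self]
  have hT2 : T.card + R.card ≤ n := by
    have hc : (Finset.univ \ R).card = n - R.card := by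
      rw [Finset.card_sdiff_of_subset (Finset.subset_univ R), Finset.card_univ, Fintype.card_fin]
    have h1 : T.card ≤ (Finset.univ \ R).card := by
      refine Finset.card_le_card_of_injOn
        (fun i => if β i ∈ R then sw n hL hr n (β i) else β i) ?_ ?_
      · intro i _
        rw [Finset.mem_coe, Finset.mem_sdiff]
        refine ⟨Finset.mem_univ _, ?_⟩
        simp only
        split_ifs with h
        · obtain ⟨⟨h2, h3⟩, h4⟩ := (Finset.mem_filter.1 h).2
          have hle := le_of_odd hL hr h2 h4
          have hb := blk_sub (r := r) hL hr hle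
          simp only [hR, Finset.mem_filter, Finset.mem_univ, true_and, not_and, hswap]
          rw [swNat, if_pos ⟨h2, h3⟩, if_neg (by omega)]
          omega
        · exact h
      · intro i hi j hj hij
        simp only [hT, Finset.mem_coe, Finset.mem_filter, Finset.mem_univ, true_and] at hi hj
        simp only at hij
        by_cases h1 : β i ∈ R <;> by_cases h2 : β j ∈ R <;> simp only [h1, h2, if_true, if_false] at hij
        · exact hβ.injective ((sw n hL hr n).injective hij)
        · exfalso
          obtain ⟨⟨a2, a3⟩, a4⟩ := (Finset.mem_filter.1 h1).2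
          have hle := le_of_odd hL hr a2 a4
          have e1 : (sw n hL hr n (β i) : ℕ) = β i - L := by
            rw [hswap, swNat, if_pos ⟨a2, a3⟩, if_neg (by omega)]
          have e2 : sw n hL hr n (β j) = β i := by rw [← hij, sw_sw]
          have hlt : β j < β i := by
            rw [← hij, Fin.lt_def, e1]; omega
          have h3 : α j < α i := hα (hβ.lt_iff_lt.1 hlt)
          rw [hi, hj, e2, Fin.lt_def, e1] at h3
          omega
        · exfalso
          obtain ⟨⟨a2, a3⟩, a4⟩ := (Finset.mem_filter.1 h2).2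
          have hle := le_of_odd hL hr a2 a4
          have e1 : (sw n hL hr n (β j) : ℕ) = β j - L := by
            rw [hswap, swNat, if_pos ⟨a2, a3⟩, if_neg (by omega)]
          have e2 : sw n hL hr n (β i) = β j := by rw [hij, sw_sw]
          have hlt : β i < β j := by
            rw [hij, Fin.lt_def, e1]; omega
          have h3 : α i < α j := hα (hβ.lt_iff_lt.1 hlt)
          rw [hi, hj, e2, Fin.lt_def, e1] at h3
          omega
        · exact hβ.injective hij
    have := (Finset.card_le_univ R).trans_eq (Fintype.card_fin n)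
    omega
  have hcover : n ≤ 2 * R.card + 4 * L := by
    set U := Finset.univ.filter (fun v : Fin n => ¬ (2 ≤ blk L r v ∧ pend L r v ≤ n)) with hU
    set R0 := Finset.univ.filter
      (fun v : Fin n => (2 ≤ blk L r v ∧ pend L r v ≤ n) ∧ blk L r v % 2 = 0) with hR0
    have h0 : R0.card ≤ R.card := by
      refine Finset.card_le_card_of_injOn (sw n hL hr n) ?_ (Equiv.injective _).injOn
      intro v hv
      obtain ⟨⟨h2, h3⟩, h4⟩ := (Finset.mem_filter.1 (Finset.mem_coe.1 hv)).2
      have hb := blk_add (r := r) (i := (v : ℕ)) hL hr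
      have hp : pend L r ((v : ℕ) + L) = pend L r v := by
        unfold pend; rw [hb]; congr 2; omega
      simp only [hR, Finset.mem_coe, Finset.mem_filter, Finset.mem_univ, true_and, hswap]
      rw [swNat, if_pos ⟨h2, h3⟩, if_pos h4]
      omega
    have hall : (Finset.univ : Finset (Fin n)) ⊆ U ∪ (R0 ∪ R) := by
      intro v _
      simp only [hU, hR0, hR, Finset.mem_union, Finset.mem_filter, Finset.mem_univ, true_and]
      by_cases h : 2 ≤ blk L r v ∧ pend L r v ≤ n
      · rcases Nat.mod_two_eq_zero_or_one (blk L r v) with h' | h'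
        · exact Or.inr (Or.inl ⟨h, h'⟩)
        · exact Or.inr (Or.inr ⟨h, h'⟩)
      · exact Or.inl h
    have hUc : U.card ≤ 4 * L := by
      refine le_trans (Finset.card_le_card_of_injOn (fun v : Fin n => (v : ℕ))
        (t := range (2 * L) ∪ Finset.Ico (n - 2 * L) n) ?_ Fin.val_injective.injOn)
        ((Finset.card_union_le _ _).trans (by simp only [Finset.card_range, Nat.card_Ico]; omega))
      intro v hv
      have h := (Finset.mem_filter.1 (Finset.mem_coe.1 hv)).2
      simp only [Finset.mem_coe, Finset.mem_union, Finset.mem_range, Finset.mem_Ico]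
      have hp := pend_bounds (i := (v : ℕ)) hL hr
      by_cases h2 : 2 ≤ blk L r v
      · exact Or.inr ⟨by omega, v.2⟩
      · have hs := blk_spec (r := r) (i := (v : ℕ)) hL
        have : L * blk L r v ≤ L * 1 := Nat.mul_le_mul_left L (by omega)
        omega
    have := (Finset.card_le_card hall).trans
      ((Finset.card_union_le _ _).trans (Nat.add_le_add_left (Finset.card_union_le _ _) _))
    rw [Finset.card_univ, Fintype.card_fin] at this
    omega
  omega

lemma choose_le_two_pow (n : ℕ) {e : ℕ} (he : e ≤ n) :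
    n.choose e ≤ 2 ^ (7 * e + 2 * (n / 128 + 1)) := by
  have h1 : n.choose e * 128 ^ (n - e) ≤ 129 ^ n := by
    rw [show (129 : ℕ) = 1 + 128 from rfl, add_pow]
    refine le_trans (le_of_eq ?_)
      (Finset.single_le_sum (fun k _ => Nat.zero_le _) (Finset.mem_range.2 (by omega : e < n + 1)))
    simp [Nat.mul_comm]
  set q := n / 128 + 1 with hq
  have hnq : n ≤ 128 * q := by omega
  have h2 : 129 ^ n ≤ 4 ^ q * 128 ^ n := by
    refine Nat.le_of_mul_le_mul_right ?_ (pow_pos (show 0 < 128 by norm_num) (128 * q - n))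
    calc 129 ^ n * 128 ^ (128 * q - n) ≤ 129 ^ n * 129 ^ (128 * q - n) :=
          Nat.mul_le_mul_left _ (Nat.pow_le_pow_left (by norm_num) _)
      _ = (129 ^ 128) ^ q := by rw [← pow_add, ← pow_mul]; congr 1; omega
      _ ≤ (4 * 128 ^ 128) ^ q := Nat.pow_le_pow_left (by norm_num) _
      _ = _ := by
          rw [mul_pow, ← pow_mul, mul_assoc, ← pow_add]; congr 2; omega
  refine Nat.le_of_mul_le_mul_right ?_ (pow_pos (show 0 < 128 by norm_num) (n - e))
  refine h1.trans (h2.trans (le_of_eq ?_))
  have h3 : (2 : ℕ) ^ (7 * e + 2 * q) = 4 ^ q * 128 ^ e := by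
    rw [pow_add, pow_mul, pow_mul, mul_comm]; norm_num
  rw [h3, mul_assoc, ← pow_add, Nat.add_sub_cancel' he]

/-- For most strings a block swap moves the string far in edit distance. -/
lemma card_close_le (hL : 0 < L) (hr : r < 2 * L) (hn : 4096 ≤ n) (hLn : 80 * L ≤ n) :
    2 * (Finset.univ.filter (fun z : Finset (Fin n) =>
      editDist (word z) (word (act (sw n hL hr n) z)) ≤ n / 256)).card ≤ 2 ^ n := by
  classical
  set e := n / 256 with he
  set M := Finset.univ.filter (fun z : Finset (Fin n) =>
      editDist (word z) (word (act (sw n hL hr n) z)) ≤ e) with hM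
  set P := (Finset.univ.powersetCard (n - e) : Finset (Finset (Fin n))) with hP
  have hsub : M ⊆ (P ×ˢ P).biUnion (fun p =>
      if h : p.1.card = n - e ∧ p.2.card = n - e then
        Finset.univ.filter (fun z : Finset (Fin n) => ∀ i,
          (p.1.orderEmbOfFin h.1 i ∈ z ↔ sw n hL hr n (p.2.orderEmbOfFin h.2 i) ∈ z))
      else ∅) := by
    intro z hz
    obtain ⟨α, β, hα, hβ, h⟩ := match_of_editDist (Finset.mem_filter.1 hz).2
    have hA : (Finset.univ.image α).card = n - e := by
      rw [Finset.card_image_of_injective _ hα.injective, Finset.card_univ, Fintype.card_fin]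
    have hB : (Finset.univ.image β).card = n - e := by
      rw [Finset.card_image_of_injective _ hβ.injective, Finset.card_univ, Fintype.card_fin]
    refine Finset.mem_biUnion.2 ⟨(Finset.univ.image α, Finset.univ.image β),
      Finset.mem_product.2 ⟨Finset.mem_powersetCard.2 ⟨Finset.subset_univ _, hA⟩,
        Finset.mem_powersetCard.2 ⟨Finset.subset_univ _, hB⟩⟩, ?_⟩
    simp only
    rw [dif_pos ⟨hA, hB⟩, Finset.mem_filter]
    refine ⟨Finset.mem_univ _, fun i => ?_⟩
    rw [← Finset.orderEmbOfFin_unique hA (fun x => Finset.mem_image_of_mem _ (Finset.mem_univ x)) hα,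
      ← Finset.orderEmbOfFin_unique hB (fun x => Finset.mem_image_of_mem _ (Finset.mem_univ x)) hβ]
    have h2 := h i
    rw [decide_eq_decide, mem_act] at h2
    exact h2
  have hF : ∀ p ∈ P ×ˢ P, (if h : p.1.card = n - e ∧ p.2.card = n - e then
        Finset.univ.filter (fun z : Finset (Fin n) => ∀ i,
          (p.1.orderEmbOfFin h.1 i ∈ z ↔ sw n hL hr n (p.2.orderEmbOfFin h.2 i) ∈ z))
      else ∅).card ≤ 2 ^ (n - n / 5) := by
    intro p _
    split_ifs with h
    · set α := p.1.orderEmbOfFin h.1 with hα
      set β := p.2.orderEmbOfFin h.2 with hβ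
      refine card_solutions_le (fun i => α i) (fun i => sw n hL hr n (β i)) α.injective
        ((sw n hL hr n).injective.comp β.injective) (n / 5) ?_
      have h1 := card_fixed_matches hL hr α.strictMono β.strictMono
      have h2 := Finset.card_filter_add_card_filter_not
        (s := (Finset.univ : Finset (Fin (n - e)))) (p := fun i => α i = sw n hL hr n (β i))
      rw [Finset.card_univ, Fintype.card_fin] at h2
      simp only [ne_eq]
      omega
    · simp
  have h1 := (Finset.card_le_card hsub).trans (Finset.card_biUnion_le_card_mul _ _ _ hF)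
  have hchoose := choose_le_two_pow n (show e ≤ n by omega)
  rw [Finset.card_product, hP, Finset.card_powersetCard, Finset.card_univ, Fintype.card_fin,
    Nat.choose_symm (show e ≤ n by omega)] at h1
  calc 2 * M.card ≤ 2 * (2 ^ (7 * e + 2 * (n / 128 + 1)) * 2 ^ (7 * e + 2 * (n / 128 + 1)) *
        2 ^ (n - n / 5)) :=
        Nat.mul_le_mul_left 2 (h1.trans (Nat.mul_le_mul_right _ (Nat.mul_le_mul hchoose hchoose)))
    _ = 2 ^ (1 + ((7 * e + 2 * (n / 128 + 1)) + (7 * e + 2 * (n / 128 + 1)) + (n - n / 5))) := by
        simp only [pow_add, pow_one]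
    _ ≤ 2 ^ n := Nat.pow_le_pow_right (by norm_num) (by omega)

end Vale.Agent.P238
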