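import Vale.Agent.P063.Hyper
import Mathlib.Algebra.BigOperators.Field

/-!
The uniform cube, permutations of coordinates, flips and average movement.
-/

namespace Vale.Agent.P238

open Finset
open Vale.Agent.P063 (wt avg ex coef chi chi1 sd Mid cf part piv)

variable {ι : Type*} [DecidableEq ι]

/-- The unbiased bias. -/
noncomputable def half : ℝ := 1 / 2

lemma mid_half : Mid half := ⟨by norm_num [half], by norm_num [half]⟩

lemma chi1_half (v : Bool) : chi1 half v = cond v 1 (-1) := by
  have h : sd half = 1 / 2 := by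
    rw [sd, show half * (1 - half) = (1 / 2) ^ 2 by norm_num [half], Real.sqrt_sq (by norm_num)]
  cases v <;> simp only [chi1, h, cond_true, cond_false] <;> norm_num [half]

lemma chi1_not (v : Bool) : chi1 half (!v) = -chi1 half v := by
  cases v <;> simp [chi1_half]

/-- Flipping one coordinate. -/
def flipAt (i : ι) (x : Finset ι) : Finset ι := if i ∈ x then x.erase i else insert i x

lemma mem_flipAt {i j : ι} {x : Finset ι} :
    j ∈ flipAt i x ↔ if j = i then j ∉ x else j ∈ x := by
  unfold flipAt
  by_cases h : i ∈ x <;> by_cases h' : j = i <;> simp_all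

lemma flipAt_invol (i : ι) : Function.Involutive (flipAt i) := fun x => by
  ext j
  simp only [mem_flipAt]
  by_cases h : j = i <;> simp [h]

/-- A permutation of coordinates acting on points. -/
def act (σ : Equiv.Perm ι) (x : Finset ι) : Finset ι := x.map σ.toEmbedding

omit [DecidableEq ι] in
lemma mem_act {σ : Equiv.Perm ι} {x : Finset ι} {j : ι} : j ∈ act σ x ↔ σ.symm j ∈ x :=
  Finset.mem_map_equiv

omit [DecidableEq ι] in
lemma act_act (σ τ : Equiv.Perm ι) (x : Finset ι) : act σ (act τ x) = act (τ.trans σ) x := by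
  ext j; simp [mem_act]

omit [DecidableEq ι] in
lemma act_refl (x : Finset ι) : act (Equiv.refl ι) x = x := by
  ext j; simp [mem_act]

omit [DecidableEq ι] in
lemma act_bijective (σ : Equiv.Perm ι) : Function.Bijective (act σ) := by
  refine Function.bijective_iff_has_inverse.2 ⟨act σ.symm, fun x => ?_, fun x => ?_⟩ <;>
    · rw [act_act]; ext j; simp [mem_act]

lemma act_flipAt (σ : Equiv.Perm ι) (i : ι) (x : Finset ι) :
    act σ (flipAt i x) = flipAt (σ i) (act σ x) := by
  ext j
  simp only [mem_act, mem_flipAt, Equiv.symm_apply_eq]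

variable [Fintype ι]

lemma avg_eq_sum (J : Finset ι) (f : Finset ι → ℝ) (x : Finset ι) :
    avg half J f x =
      (∑ z ∈ Finset.univ.filter (fun z => z \ J = x \ J), f z) / (2 : ℝ) ^ J.card := by
  unfold avg
  rw [Finset.sum_div]
  refine Finset.sum_bij' (fun y _ => (x \ J) ∪ y) (fun z _ => z ∩ J) ?_ ?_ ?_ ?_ ?_
  · intro y hy
    have hy' := Finset.mem_powerset.1 hy
    simp only [Finset.mem_filter, Finset.mem_univ, true_and]
    ext a
    simp only [Finset.mem_sdiff, Finset.mem_union]
    constructor
    · rintro ⟨h1 | h1, h2⟩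
      · exact h1
      · exact absurd (hy' h1) h2
    · intro h; exact ⟨Or.inl h, h.2⟩
  · intro z _
    exact Finset.mem_powerset.2 Finset.inter_subset_right
  · intro y hy
    have hy' := Finset.mem_powerset.1 hy
    ext a
    simp only [Finset.mem_inter, Finset.mem_sdiff, Finset.mem_union]
    constructor
    · rintro ⟨h1 | h1, h2⟩
      · exact absurd h2 h1.2
      · exact h1
    · intro h; exact ⟨Or.inr h, hy' h⟩
  · intro z hz
    have hz' := (Finset.mem_filter.1 hz).2
    rw [← hz']
    exact Finset.sdiff_union_inter z J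
  · intro y hy
    have hle : y.card ≤ J.card := Finset.card_le_card (Finset.mem_powerset.1 hy)
    rw [wt, show (1 : ℝ) - half = half by norm_num [half], ← pow_add,
      Nat.add_sub_cancel' hle, half, div_pow, one_pow]
    ring

lemma avg_comp {J : Finset ι} (τ : Finset ι → Finset ι) (hτ : Function.Bijective τ)
    (hout : ∀ z, τ z \ J = z \ J) (f : Finset ι → ℝ) (x : Finset ι) :
    avg half J (fun z => f (τ z)) x = avg half J f x := by
  rw [avg_eq_sum, avg_eq_sum]
  congr 1
  refine Finset.sum_equiv (Equiv.ofBijective τ hτ) (fun z => ?_) (fun z _ => rfl)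
  simp [hout]

lemma ex_comp (τ : Finset ι → Finset ι) (hτ : Function.Bijective τ) (f : Finset ι → ℝ) :
    ex half (fun z => f (τ z)) = ex half f :=
  avg_comp τ hτ (fun z => by ext a; simp) f ∅

lemma flipAt_sdiff {J : Finset ι} {i : ι} (hi : i ∈ J) (z : Finset ι) :
    flipAt i z \ J = z \ J := by
  ext a
  simp only [Finset.mem_sdiff, mem_flipAt]
  by_cases h : a = i <;> simp [h, hi]

lemma act_sdiff {J : Finset ι} {σ : Equiv.Perm ι} (hσ : ∀ i, i ∉ J → σ i = i) (z : Finset ι) :
    act σ z \ J = z \ J := by
  ext a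
  simp only [Finset.mem_sdiff, mem_act]
  constructor <;> rintro ⟨h1, h2⟩
  · exact ⟨by rwa [(Equiv.symm_apply_eq σ).2 (hσ a h2).symm] at h1, h2⟩
  · exact ⟨by rwa [(Equiv.symm_apply_eq σ).2 (hσ a h2).symm], h2⟩

/-- The average movement of `f` under `τ`. -/
noncomputable def mv (f : Finset ι → ℝ) (τ : Finset ι → Finset ι) : ℝ :=
  ex half (fun x => |f (τ x) - f x|)

lemma mv_nonneg (f : Finset ι → ℝ) (τ : Finset ι → Finset ι) : 0 ≤ mv f τ := by
  unfold mv ex
  exact Vale.Agent.P063.avg_nonneg mid_half.pos mid_half.le_one (fun _ => abs_nonneg _) _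

/-- The function takes the values zero and one only. -/
def Zo (f : Finset ι → ℝ) : Prop := ∀ z, f z = 0 ∨ f z = 1

lemma parseval (g : Finset ι → ℝ) :
    ex half (fun x => g x ^ 2) = ∑ S, coef half g S ^ 2 := by
  have e : (fun x => g x ^ 2) = fun x => ∑ S, coef half g S * (g x * chi half S x) := by
    funext x
    rw [sq]
    conv_lhs => arg 2; rw [Vale.Agent.P063.eq_sum_coef mid_half g x]
    rw [Finset.mul_sum]
    exact Finset.sum_congr rfl fun S _ => by ring
  unfold ex
  rw [e, Vale.Agent.P063.avg_sum]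
  refine Finset.sum_congr rfl fun S _ => ?_
  rw [Vale.Agent.P063.avg_mul_left, sq]
  rfl

lemma coef_sub (g h : Finset ι → ℝ) (S : Finset ι) :
    coef half (fun x => g x - h x) S = coef half g S - coef half h S := by
  unfold coef ex
  rw [← Vale.Agent.P063.avg_sub]
  congr 1; funext z; ring

lemma mv_eq {f : Finset ι → ℝ} (hf : Zo f) (τ : Finset ι → Finset ι) :
    mv f τ = ∑ S, (coef half (fun x => f (τ x)) S - coef half f S) ^ 2 := by
  have e : (fun x => |f (τ x) - f x|) = fun x => (f (τ x) - f x) ^ 2 := by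
    funext x
    rcases hf (τ x) with h | h <;> rcases hf x with h' | h' <;> rw [h, h'] <;> norm_num
  rw [mv, e, parseval]
  exact Finset.sum_congr rfl fun S _ => by rw [coef_sub]

lemma coef_act (f : Finset ι → ℝ) (σ : Equiv.Perm ι) (S : Finset ι) :
    coef half (fun x => f (act σ x)) S = coef half f (act σ S) := by
  unfold coef
  rw [← ex_comp (act σ) (act_bijective σ) (fun z => f z * chi half (act σ S) z)]
  congr 1
  funext x
  congr 1
  unfold chi act
  rw [Finset.prod_map]
  refine Finset.prod_congr rfl fun i _ => ?_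
  simp [Finset.mem_map_equiv]

lemma mv_act {f : Finset ι → ℝ} (hf : Zo f) (σ : Equiv.Perm ι) :
    mv f (act σ) = ∑ S, (coef half f (act σ S) - coef half f S) ^ 2 := by
  rw [mv_eq hf]
  exact Finset.sum_congr rfl fun S _ => by rw [coef_act]

lemma chi_flipAt (S : Finset ι) (i : ι) (x : Finset ι) :
    chi half S (flipAt i x) = (if i ∈ S then -1 else 1) * chi half S x := by
  by_cases hi : i ∈ S
  · rw [if_pos hi]
    unfold chi
    rw [← Finset.insert_erase hi, Finset.prod_insert (Finset.notMem_erase i S),
      Finset.prod_insert (Finset.notMem_erase i S)]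
    have h1 : decide (i ∈ flipAt i x) = !decide (i ∈ x) := by simp [mem_flipAt]
    have h2 : ∀ j ∈ S.erase i, chi1 half (decide (j ∈ flipAt i x)) =
        chi1 half (decide (j ∈ x)) := fun j hj => by
      simp [mem_flipAt, (Finset.mem_erase.1 hj).1]
    rw [Finset.prod_congr rfl h2, h1, chi1_not]
    ring
  · rw [if_neg hi, one_mul]
    exact Finset.prod_congr rfl fun j hj => by
      have : j ≠ i := fun h => hi (h ▸ hj)
      simp [mem_flipAt, this]

lemma coef_flip (f : Finset ι → ℝ) (i : ι) (S : Finset ι) :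
    coef half (fun x => f (flipAt i x)) S = (if i ∈ S then -1 else 1) * coef half f S := by
  unfold coef
  conv_rhs => rw [← ex_comp (flipAt i) (flipAt_invol i).bijective (fun z => f z * chi half S z)]
  unfold ex
  rw [← Vale.Agent.P063.avg_mul_left]
  congr 1
  funext x
  rw [chi_flipAt]
  by_cases hi : i ∈ S <;> simp [hi]

lemma sum_mv_flip {f : Finset ι → ℝ} (hf : Zo f) :
    ∑ i, mv f (flipAt i) = 4 * ∑ S : Finset ι, (S.card : ℝ) * coef half f S ^ 2 := by
  simp only [mv_eq hf, coef_flip]
  rw [Finset.sum_comm, Finset.mul_sum]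
  refine Finset.sum_congr rfl fun S _ => ?_
  calc ∑ i, ((if i ∈ S then (-1 : ℝ) else 1) * coef half f S - coef half f S) ^ 2
      = ∑ i, if i ∈ S then 4 * coef half f S ^ 2 else 0 :=
        Finset.sum_congr rfl fun i _ => by split_ifs <;> ring
    _ = 4 * ((S.card : ℝ) * coef half f S ^ 2) := by
        rw [Finset.sum_ite_mem, Finset.univ_inter, Finset.sum_const, nsmul_eq_mul]
        ring

lemma piv_eq {f : Finset ι → ℝ} (hf : Zo f) (i : ι) :
    piv i f = fun z => |f (flipAt i z) - f z| := by
  funext z
  unfold piv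
  have h : f (flipAt i z) - f z = (f (z.erase i) - f (insert i z)) ∨
      f (flipAt i z) - f z = (f (insert i z) - f (z.erase i)) := by
    by_cases hi : i ∈ z
    · exact Or.inl (by simp [flipAt, hi, Finset.insert_eq_of_mem hi])
    · exact Or.inr (by simp [flipAt, hi, Finset.erase_eq_of_notMem hi])
  have h2 : |f (flipAt i z) - f z| = |f (insert i z) - f (z.erase i)| := by
    rcases h with h | h
    · rw [h, abs_sub_comm]
    · rw [h]
  rw [h2]
  rcases hf (insert i z) with a | a <;> rcases hf (z.erase i) with a' | a' <;>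
    simp [a, a']

lemma cf_eq_part (J : Finset ι) (f : Finset ι → ℝ) {U : Finset ι} (hU : U ⊆ J) (x : Finset ι) :
    cf half J f U x = part half J f Finset.univ U x := by
  unfold cf part
  have e : (fun z => f z * chi half U z) =
      fun z => ∑ S, coef half f S * (chi half S z * chi half U z) := by
    funext z
    conv_lhs => rw [Vale.Agent.P063.eq_sum_coef mid_half f z, Finset.sum_mul]
    exact Finset.sum_congr rfl fun S _ => by ring
  rw [e, Vale.Agent.P063.avg_sum, Finset.sum_filter]
  refine Finset.sum_congr rfl fun S _ => ?_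
  rw [Vale.Agent.P063.avg_mul_left, Vale.Agent.P063.avg_chi_mul mid_half J S U hU]
  split_ifs <;> simp

lemma ex_cf_sq (J : Finset ι) (f : Finset ι → ℝ) {U : Finset ι} (hU : U ⊆ J) :
    ex half (fun x => cf half J f U x ^ 2) =
      ∑ S ∈ Finset.univ.filter (fun S => S ∩ J = U), coef half f S ^ 2 := by
  simp only [cf_eq_part J f hU]
  exact Vale.Agent.P063.ex_part_sq mid_half J f Finset.univ U

end Vale.Agent.P238
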