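import Vale.Agent.P238.Cut
import Vale.Agent.P238.Dist
import Mathlib.Analysis.Normed.Lp.lpSpace
import Mathlib.Analysis.SpecialFunctions.Log.Basic
import Mathlib.Data.Nat.Log
import Mathlib.Analysis.Complex.ExponentialBounds

/-!
The lower bound for the distortion of edit distance.
-/

namespace Vale.Agent.P238

open Finset
open Vale.Agent.P063 (ex avg)

/-- The point of the cube as a Boolean vector. -/
def vec {n : ℕ} (z : Finset (Fin n)) : Fin n → Bool := fun i => decide (i ∈ z)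

lemma ex_le_const {n : ℕ} {F : Finset (Fin n) → ℝ} {C : ℝ} (h : ∀ z, F z ≤ C) :
    ex half F ≤ C :=
  (Vale.Agent.P063.avg_mono mid_half.pos mid_half.le_one h _).trans
    (Vale.Agent.P063.avg_const _ _ _ _).le

lemma ex_univ {n : ℕ} (F : Finset (Fin n) → ℝ) :
    ex half F = (∑ z, F z) / (2 : ℝ) ^ n := by
  unfold ex
  rw [avg_eq_sum, Finset.card_univ, Fintype.card_fin, Finset.filter_true_of_mem]
  intro z _
  ext a
  simp

/-- The average movement of an embedding. -/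
noncomputable def mvN {n : ℕ} (Φ : (Fin n → Bool) → lp (fun _ : ℕ => ℝ) 1)
    (τ : Finset (Fin n) → Finset (Fin n)) : ℝ :=
  ex half (fun z => ‖Φ (vec (τ z)) - Φ (vec z)‖)

lemma hasSum_mv {n : ℕ} (Φ : (Fin n → Bool) → lp (fun _ : ℕ => ℝ) 1)
    (τ : Finset (Fin n) → Finset (Fin n)) :
    HasSum (fun i => mv (fun z => Φ (vec z) i) τ) (mvN Φ τ) := by
  have h1 : ∀ v : lp (fun _ : ℕ => ℝ) 1, HasSum (fun i => |v i|) ‖v‖ := fun v => by
    have h := lp.hasSum_norm (E := fun _ : ℕ => ℝ) (p := 1) (by norm_num) v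
    simpa [Real.norm_eq_abs] using h
  simp only [mv, mvN, ex_univ]
  refine HasSum.div_const (hasSum_sum fun z _ => ?_) _
  exact h1 (Φ (vec (τ z)) - Φ (vec z))

namespace Par

variable (P : Par)

/-- The long moves for an embedding. -/
noncomputable def lhsN (Φ : (Fin P.n → Bool) → lp (fun _ : ℕ => ℝ) 1) : ℝ :=
  ∑ j ∈ range P.m, (1 / (2 * P.L j : ℝ)) * ∑ r ∈ range (2 * P.L j), mvN Φ (act (P.pi j r))

/-- The short moves for an embedding. -/
noncomputable def rhsN (Φ : (Fin P.n → Bool) → lp (fun _ : ℕ => ℝ) 1) : ℝ :=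
  2 * (P.Q : ℝ) * ∑ j ∈ range P.m, ∑ a ∈ range (P.n / P.H j + 1),
      (mvN Φ (act (stepUp P.n (P.L j) (P.H j) a)) + mvN Φ (act (stepDown P.n (P.L j) (P.H j) a))) +
    (14 / (P.k : ℝ)) * ∑ i, mvN Φ (flipAt i) +
    (4 * (P.m : ℝ) / (P.u : ℝ) ^ 2) *
      ∑ b ∈ range (P.n / P.w), ∑ s ∈ range (P.u ^ 4), mvN Φ (act (P.wrot b s))

lemma norm_le (Φ : (Fin P.n → Bool) → lp (fun _ : ℕ => ℝ) 1) : P.lhsN Φ ≤ P.rhsN Φ := by
  have hl : HasSum (fun i => P.lhs (fun z => Φ (vec z) i)) (P.lhsN Φ) :=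
    hasSum_sum fun j _ => (hasSum_sum fun r _ => hasSum_mv Φ _).mul_left _
  have hr : HasSum (fun i => P.rhs (fun z => Φ (vec z) i)) (P.rhsN Φ) := by
    refine HasSum.add (HasSum.add ?_ ?_) ?_
    · exact (hasSum_sum fun j _ => hasSum_sum fun a _ =>
        (hasSum_mv Φ _).add (hasSum_mv Φ _)).mul_left _
    · exact (hasSum_sum fun i _ => hasSum_mv Φ _).mul_left _
    · exact (hasSum_sum fun b _ => hasSum_sum fun s _ => hasSum_mv Φ _).mul_left _
  exact hasSum_le (fun i => P.real_le _) hl hr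

lemma mvN_le {Φ : (Fin P.n → Bool) → lp (fun _ : ℕ => ℝ) 1} {A : ℝ} (hA0 : 0 ≤ A)
    (hA : ∀ x y, ‖Φ x - Φ y‖ ≤ A * editDist (List.ofFn x) (List.ofFn y))
    {τ : Finset (Fin P.n) → Finset (Fin P.n)} {d : ℕ}
    (hd : ∀ z, editDist (word z) (word (τ z)) ≤ d) : mvN Φ τ ≤ A * d :=
  ex_le_const fun z => by
    rw [norm_sub_rev]
    exact (hA _ _).trans (mul_le_mul_of_nonneg_left (by exact_mod_cast hd z) hA0)

lemma rhsN_le {Φ : (Fin P.n → Bool) → lp (fun _ : ℕ => ℝ) 1} {A : ℝ} (hA0 : 0 ≤ A)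
    (hA : ∀ x y, ‖Φ x - Φ y‖ ≤ A * editDist (List.ofFn x) (List.ofFn y)) :
    P.rhsN Φ ≤ 38 * A * P.n / P.k := by
  have hk0 : (0 : ℝ) < P.k := by exact_mod_cast P.hk
  have hm0 : (0 : ℝ) < P.m := by exact_mod_cast P.hm
  have hu0 : (0 : ℝ) < P.u := by exact_mod_cast (lt_of_lt_of_le (by norm_num) P.u_ge : 0 < P.u)
  have hQ : (P.Q : ℝ) = P.m * P.k := by simp [Q]
  have hQ0 : (0 : ℝ) < P.Q := by rw [hQ]; positivity
  have hup : ∀ j a, mvN Φ (act (stepUp P.n (P.L j) (P.H j) a)) ≤ A * (2 * P.L j : ℕ) := fun j a =>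
    P.mvN_le hA0 hA fun z => by
      have := editDist_rot (a * P.H j - P.H j) (a * P.H j + 2 * P.H j) (P.L j) z
      unfold stepUp
      omega
  have hdown : ∀ j a, mvN Φ (act (stepDown P.n (P.L j) (P.H j) a)) ≤ A * (2 * P.L j : ℕ) :=
    fun j a => P.mvN_le hA0 hA fun z => by
      have := editDist_rot' (a * P.H j - P.H j) (a * P.H j + 2 * P.H j)
        (min (a * P.H j + 2 * P.H j) P.n - (a * P.H j - P.H j) - P.L j) z
      unfold stepDown
      omega
  have hfirst : ∀ j ∈ range P.m, ∑ a ∈ range (P.n / P.H j + 1),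
      (mvN Φ (act (stepUp P.n (P.L j) (P.H j) a)) + mvN Φ (act (stepDown P.n (P.L j) (P.H j) a))) ≤
      8 * A * P.n / (P.Q : ℝ) ^ 2 := by
    intro j hj
    refine (Finset.sum_le_card_nsmul _ _ (A * (2 * P.L j : ℕ) + A * (2 * P.L j : ℕ))
      fun a _ => add_le_add (hup j a) (hdown j a)).trans ?_
    rw [Finset.card_range, nsmul_eq_mul]
    have hH0 := P.H_pos j
    have h3 := P.three_H_le (Finset.mem_range.1 hj)
    have h4 : 1 ≤ P.n / P.H j := Nat.div_pos (by omega) hH0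
    have h5 : (P.n / P.H j + 1) * P.H j ≤ 2 * P.n := by
      have := Nat.div_mul_le_self P.n (P.H j)
      rw [Nat.add_one_mul]
      omega
    rw [P.H_eq] at h5
    have h6 : (((P.n / P.H j + 1 : ℕ)) : ℝ) * ((P.Q : ℝ) ^ 2 * P.L j) ≤ 2 * P.n := by
      rw [P.H_eq]; exact_mod_cast h5
    rw [le_div_iff₀ (by positivity)]
    push_cast at h6 ⊢
    nlinarith [mul_le_mul_of_nonneg_left h6 hA0]
  have hflip : ∑ i, mvN Φ (flipAt i) ≤ A * P.n := by
    refine (Finset.sum_le_card_nsmul _ _ (A * (1 : ℕ))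
      fun i _ => P.mvN_le hA0 hA (editDist_flip i)).trans_eq ?_
    simp [mul_comm]
  have hlast : ∀ b ∈ range (P.n / P.w), ∑ s ∈ range (P.u ^ 4), mvN Φ (act (P.wrot b s)) ≤
      2 * A * (P.u : ℝ) ^ 8 := by
    intro b _
    refine (Finset.sum_le_card_nsmul _ _ (A * (2 * P.u ^ 4 : ℕ)) fun s hs =>
      P.mvN_le hA0 hA fun z => ?_).trans_eq ?_
    · have := editDist_rot (b * P.w) (P.hi b) (s + 1) z
      have := Finset.mem_range.1 hs
      unfold wrot
      omega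
    · rw [Finset.card_range, nsmul_eq_mul]; push_cast; ring
  have e1 : 2 * (P.Q : ℝ) * ∑ j ∈ range P.m, ∑ a ∈ range (P.n / P.H j + 1),
      (mvN Φ (act (stepUp P.n (P.L j) (P.H j) a)) + mvN Φ (act (stepDown P.n (P.L j) (P.H j) a))) ≤
      16 * A * P.n / P.k := by
    refine (mul_le_mul_of_nonneg_left (Finset.sum_le_card_nsmul _ _ _ hfirst) (by positivity)).trans_eq ?_
    rw [Finset.card_range, nsmul_eq_mul, hQ]
    field_simp
    ring
  have e2 : (14 / (P.k : ℝ)) * ∑ i, mvN Φ (flipAt i) ≤ 14 * A * P.n / P.k := by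
    refine (mul_le_mul_of_nonneg_left hflip (by positivity)).trans_eq ?_
    ring
  have e3 : (4 * (P.m : ℝ) / (P.u : ℝ) ^ 2) *
      ∑ b ∈ range (P.n / P.w), ∑ s ∈ range (P.u ^ 4), mvN Φ (act (P.wrot b s)) ≤
      8 * A * P.n / P.k := by
    refine (mul_le_mul_of_nonneg_left (Finset.sum_le_card_nsmul _ _ _ hlast) (by positivity)).trans ?_
    rw [Finset.card_range, nsmul_eq_mul]
    have h : ((P.n / P.w : ℕ) : ℝ) * (P.u : ℝ) ^ 8 ≤ P.n := by
      have h' : P.n / P.w * P.u ^ 8 ≤ P.n := Nat.div_mul_le_self P.n P.w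
      exact_mod_cast h'
    have hmk : (P.m : ℝ) * P.k ≤ (P.u : ℝ) ^ 2 := by
      have h' : P.m * P.k ≤ P.u ^ 2 := P.Q_le_u.trans (Nat.le_self_pow (by norm_num) _)
      exact_mod_cast h'
    rw [div_mul_eq_mul_div, div_le_div_iff₀ (by positivity) hk0]
    have h8 : 0 ≤ A * ((P.n / P.w : ℕ) : ℝ) * (P.u : ℝ) ^ 8 := by positivity
    nlinarith [mul_le_mul_of_nonneg_left hmk h8,
      mul_le_mul_of_nonneg_left h (mul_nonneg hA0 (sq_nonneg (P.u : ℝ)))]
  unfold rhsN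
  have : 38 * A * P.n / P.k = 16 * A * P.n / P.k + 14 * A * P.n / P.k + 8 * A * P.n / P.k := by ring
  linarith

lemma lhsN_ge {Φ : (Fin P.n → Bool) → lp (fun _ : ℕ => ℝ) 1} {B : ℝ} (hB0 : 0 < B)
    (hB : ∀ x y, (editDist (List.ofFn x) (List.ofFn y) : ℝ) ≤ B * ‖Φ x - Φ y‖) :
    (P.m : ℝ) * P.n / (512 * B) ≤ P.lhsN Φ := by
  classical
  unfold lhsN
  have hterm : ∀ j ∈ range P.m, (P.n : ℝ) / (512 * B) ≤
      (1 / (2 * P.L j : ℝ)) * ∑ r ∈ range (2 * P.L j), mvN Φ (act (P.pi j r)) := by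
    intro j hj
    have h0 : (0 : ℝ) < P.L j := by exact_mod_cast P.L_pos j
    have hL80 : 80 * P.L j ≤ P.n := by
      refine le_trans ?_ (P.three_H_le (Finset.mem_range.1 hj))
      rw [P.H_eq, ← mul_assoc]
      refine Nat.mul_le_mul_right _ ?_
      have := P.Q_ge
      nlinarith
    have h1 : ∀ r ∈ range (2 * P.L j), (P.n : ℝ) / (512 * B) ≤ mvN Φ (act (P.pi j r)) := by
      intro r hr
      rw [Finset.mem_range] at hr
      rw [pi, dif_pos hr, mvN, ex_univ]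
      set π := sw P.n (P.L_pos j) hr P.n with hπ
      set F := Finset.univ.filter (fun z : Finset (Fin P.n) =>
        editDist (word z) (word (act π z)) ≤ P.n / 256) with hF
      have hF2 : 2 * F.card ≤ 2 ^ P.n := card_close_le (P.L_pos j) hr P.hn' hL80
      have hcomp := Finset.card_filter_add_card_filter_not (s := (Finset.univ : Finset (Finset (Fin P.n))))
        (p := fun z => editDist (word z) (word (act π z)) ≤ P.n / 256)
      rw [Finset.card_univ, Fintype.card_finset, Fintype.card_fin] at hcomp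
      have hbig : ∀ z ∈ Finset.univ.filter (fun z : Finset (Fin P.n) =>
          ¬ editDist (word z) (word (act π z)) ≤ P.n / 256),
          (P.n : ℝ) / 256 / B ≤ ‖Φ (vec (act π z)) - Φ (vec z)‖ := by
        intro z hz
        have h2 := (Finset.mem_filter.1 hz).2
        have h3 : (P.n : ℝ) ≤ 256 * (editDist (word z) (word (act π z)) : ℝ) := by
          have : P.n ≤ 256 * editDist (word z) (word (act π z)) := by omega
          exact_mod_cast this
        have h4 := hB (vec z) (vec (act π z))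
        rw [norm_sub_rev] at h4
        change (editDist (word z) (word (act π z)) : ℝ) ≤ _ at h4
        rw [div_le_iff₀ hB0, div_le_iff₀ (by norm_num)]
        linarith
      have h5 := Finset.card_nsmul_le_sum _ _ _ hbig
      rw [nsmul_eq_mul] at h5
      rw [le_div_iff₀ (by positivity)]
      refine le_trans ?_ (h5.trans (Finset.sum_le_sum_of_subset_of_nonneg (Finset.filter_subset _ _)
        fun z _ _ => norm_nonneg _))
      have h6 : (2 : ℝ) ^ P.n ≤ 2 * ((Finset.univ.filter (fun z : Finset (Fin P.n) =>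
          ¬ editDist (word z) (word (act π z)) ≤ P.n / 256)).card : ℝ) := by
        have h' : 2 ^ P.n ≤ 2 * (Finset.univ.filter (fun z : Finset (Fin P.n) =>
            ¬ editDist (word z) (word (act π z)) ≤ P.n / 256)).card := by
          rw [hF] at hF2
          omega
        exact_mod_cast h'
      calc (P.n : ℝ) / (512 * B) * 2 ^ P.n
          ≤ (P.n : ℝ) / (512 * B) * (2 * _) := mul_le_mul_of_nonneg_left h6 (by positivity)
        _ = _ := by field_simp; ring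
    have h7 := Finset.card_nsmul_le_sum _ _ _ h1
    rw [Finset.card_range, nsmul_eq_mul, Nat.cast_mul, Nat.cast_ofNat] at h7
    rw [div_mul_eq_mul_div, one_mul, le_div_iff₀ (by positivity)]
    linarith
  refine le_trans (le_of_eq ?_) (Finset.card_nsmul_le_sum _ _ _ hterm)
  rw [Finset.card_range, nsmul_eq_mul, mul_div_assoc]

lemma distortion_ge {Φ : (Fin P.n → Bool) → lp (fun _ : ℕ => ℝ) 1} {A B : ℝ} (hA0 : 0 < A)
    (hB0 : 0 < B) (hA : ∀ x y, ‖Φ x - Φ y‖ ≤ A * editDist (List.ofFn x) (List.ofFn y))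
    (hB : ∀ x y, (editDist (List.ofFn x) (List.ofFn y) : ℝ) ≤ B * ‖Φ x - Φ y‖) :
    (P.m : ℝ) * P.k / 19456 ≤ A * B := by
  have h := (P.lhsN_ge hB0 hB).trans ((P.norm_le Φ).trans (P.rhsN_le hA0.le hA))
  have hk0 : (0 : ℝ) < P.k := by exact_mod_cast P.hk
  have hn0 : (0 : ℝ) < P.n := by exact_mod_cast (lt_of_lt_of_le (by norm_num) P.hn' : 0 < P.n)
  rw [div_le_div_iff₀ (by positivity) hk0] at h
  rw [div_le_iff₀ (by norm_num)]
  nlinarith

end Par

lemma sq_mul_five_pow_le {k : ℕ} (hk : 10 ≤ k) : k * k * 5 ^ k ≤ 8 ^ k := by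
  induction k, hk using Nat.le_induction with
  | base => norm_num
  | succ k hk ih =>
    have : (k + 1) * (k + 1) * 5 ≤ k * k * 8 := by nlinarith
    calc (k + 1) * (k + 1) * 5 ^ (k + 1) = ((k + 1) * (k + 1) * 5) * 5 ^ k := by ring
      _ ≤ (k * k * 8) * 5 ^ k := Nat.mul_le_mul_right _ this
      _ = 8 * (k * k * 5 ^ k) := by ring
      _ ≤ 8 * 8 ^ k := Nat.mul_le_mul_left _ ih
      _ = 8 ^ (k + 1) := by ring

/-- The choice of parameters. -/
lemma exists_par {n : ℕ} (hn : 400 ≤ Nat.log 2 n) :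
    ∃ P : Par, P.n = n ∧ P.k = Nat.log 2 n / 40 ∧ P.k ≤ 2 * (P.m * (Nat.log 2 P.k + 1)) := by
  set ℓ := Nat.log 2 n with hℓ
  set k := ℓ / 40 with hk
  set e := Nat.log 2 k + 1 with he
  set m := k / e with hm
  have hk10 : 10 ≤ k := by omega
  have hke : k < 2 ^ e := Nat.lt_pow_succ_log_self (by norm_num) k
  have hek : e ≤ k := Nat.log_lt_self 2 (by omega)
  have hm1 : 1 ≤ m := Nat.div_pos hek (by omega)
  have hmk : m ≤ k := Nat.div_le_self _ _
  have hme : m * e ≤ k := Nat.div_mul_le_self _ _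
  have hn0 : n ≠ 0 := fun h => by simp [hℓ, h] at hn
  have hpow : 2 ^ ℓ ≤ n := Nat.pow_log_le_self 2 hn0
  refine ⟨⟨n, k, m, 8 ^ k, by omega, hm1, ?_, ?_, ?_, ?_⟩, rfl, rfl, ?_⟩
  · calc 6 ≤ 1 * k := by omega
      _ ≤ m * k := Nat.mul_le_mul_right _ hm1
  · calc 5 ^ k * (m * k) ≤ 5 ^ k * (k * k) := Nat.mul_le_mul_left _ (Nat.mul_le_mul_right _ hmk)
      _ ≤ 8 ^ k := by rw [mul_comm]; exact sq_mul_five_pow_le hk10
  · have h1 : 3 * (m * k) ^ 5 ≤ 2 ^ (12 * e) := by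
      have h2 : (m * k) ^ 5 ≤ (2 ^ e * 2 ^ e) ^ 5 :=
        Nat.pow_le_pow_left (Nat.mul_le_mul (hmk.trans hke.le) hke.le) 5
      calc 3 * (m * k) ^ 5 ≤ 2 ^ 2 * (2 ^ e * 2 ^ e) ^ 5 := Nat.mul_le_mul (by norm_num) h2
        _ = 2 ^ (2 + 10 * e) := by rw [pow_add]; ring
        _ ≤ 2 ^ (12 * e) := Nat.pow_le_pow_right (by norm_num) (by omega)
    calc 2 * (8 ^ k) ^ 8 * (3 * (m * k) ^ 5) ^ m ≤ 2 * (8 ^ k) ^ 8 * (2 ^ (12 * e)) ^ m :=
          Nat.mul_le_mul_left _ (Nat.pow_le_pow_left h1 m)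
      _ = 2 ^ (1 + 24 * k + 12 * (m * e)) := by
          rw [show (8 : ℕ) = 2 ^ 3 by norm_num, ← pow_mul, ← pow_mul, ← pow_mul, ← pow_succ',
            ← pow_add]
          congr 1
          ring
      _ ≤ 2 ^ ℓ := Nat.pow_le_pow_right (by norm_num) (by omega)
      _ ≤ n := hpow
  · calc 4096 = 2 ^ 12 := by norm_num
      _ ≤ 2 ^ ℓ := Nat.pow_le_pow_right (by norm_num) (by omega)
      _ ≤ n := hpow
  · change k ≤ 2 * (m * e)
    have h := Nat.lt_mul_div_succ k (show 0 < e by omega)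
    rw [← hm, Nat.mul_add, Nat.mul_one, Nat.mul_comm e m] at h
    have : e ≤ m * e := Nat.le_mul_of_pos_left _ hm1
    omega

/-- The distortion of edit distance on binary strings is at least a constant times
`(log n) ^ 2 / log (log n)`. -/
theorem edit_distortion_lower_bound :
    ∃ c : ℝ, 0 < c ∧ ∃ N : ℕ, ∀ n : ℕ, N ≤ n →
      ∀ (Φ : (Fin n → Bool) → lp (fun _ : ℕ => ℝ) 1) (A B : ℝ),
        (∀ x y, ‖Φ x - Φ y‖ ≤ A * editDist (List.ofFn x) (List.ofFn y)) →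
        (∀ x y, (editDist (List.ofFn x) (List.ofFn y) : ℝ) ≤ B * ‖Φ x - Φ y‖) →
        c * Real.log n ^ 2 / Real.log (Real.log n) ≤ A * B := by
  refine ⟨1 / (19456 * 160 ^ 2 * 8), by norm_num, 2 ^ (400 : ℕ), fun n hn Φ A B hA hB => ?_⟩
  have hn0 : n ≠ 0 := fun h => by simp [h] at hn
  have hℓ : 400 ≤ Nat.log 2 n := Nat.le_log_of_pow_le (by norm_num) hn
  obtain ⟨P, rfl, hPk, hPm⟩ := exists_par hℓ
  have hpos : 0 < A ∧ 0 < B := by
    set x : Finset (Fin P.n) := ∅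
    have hne : vec (flipAt ⟨0, lt_of_lt_of_le (by norm_num) P.hn'⟩ x) ≠ vec x := fun h => by
      have := congrFun h ⟨0, lt_of_lt_of_le (by norm_num) P.hn'⟩
      simp [vec, mem_flipAt, x] at this
    set a := vec (flipAt ⟨0, lt_of_lt_of_le (by norm_num) P.hn'⟩ x)
    have hd : 1 ≤ editDist (List.ofFn a) (List.ofFn (vec x)) := by
      by_contra hc
      have h2 : Edits 0 (List.ofFn a) (List.ofFn (vec x)) :=
        (show editDist (List.ofFn a) (List.ofFn (vec x)) = 0 by omega) ▸ edits_editDist _ _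
      exact hne (List.ofFn_inj.1 h2)
    have hd' : (1 : ℝ) ≤ editDist (List.ofFn a) (List.ofFn (vec x)) := by exact_mod_cast hd
    have h1 := hA a (vec x)
    have h2 := hB a (vec x)
    have h3 : 0 ≤ ‖Φ a - Φ (vec x)‖ := norm_nonneg _
    have hN : 0 < ‖Φ a - Φ (vec x)‖ := by
      rcases h3.eq_or_lt with h | h
      · rw [← h] at h2; linarith
      · exact h
    exact ⟨pos_of_mul_pos_left (lt_of_lt_of_le hN h1) (by positivity),
      pos_of_mul_pos_left (lt_of_lt_of_le (lt_of_lt_of_le one_pos hd') h2) h3⟩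
  refine le_trans ?_ (P.distortion_ge hpos.1 hpos.2 hA hB)
  set ℓ := Nat.log 2 P.n with hℓdef
  have hlog2 : (1 / 2 : ℝ) < Real.log 2 := lt_trans (by norm_num) Real.log_two_gt_d9
  have hlog2' : Real.log 2 < 1 := lt_trans Real.log_two_lt_d9 (by norm_num)
  have hlow : (ℓ : ℝ) * Real.log 2 ≤ Real.log P.n := by
    rw [← Real.log_pow]
    exact Real.log_le_log (by positivity) (by exact_mod_cast Nat.pow_log_le_self 2 hn0)
  have hupp : Real.log P.n ≤ ((ℓ : ℝ) + 1) * Real.log 2 := by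
    rw [show ((ℓ : ℝ) + 1) = ((ℓ + 1 : ℕ) : ℝ) by push_cast; ring, ← Real.log_pow]
    exact Real.log_le_log (by exact_mod_cast Nat.pos_of_ne_zero hn0)
      (by exact_mod_cast (Nat.lt_pow_succ_log_self (by norm_num) P.n).le)
  set LN := Real.log P.n with hLN
  have hℓR : (400 : ℝ) ≤ ℓ := by exact_mod_cast hℓ
  have hLN200 : 200 ≤ LN := by nlinarith
  set LL := Real.log LN with hLL
  have hLL1 : 1 ≤ LL := by
    rw [hLL, Real.le_log_iff_exp_le (by linarith)]
    linarith [Real.exp_one_lt_d9]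
  have hℓ0 : (0 : ℝ) < ℓ := by linarith
  have hk : LN ≤ 160 * (P.k : ℝ) := by
    have h' : ℓ + 1 ≤ 80 * P.k := by omega
    have h'' : (ℓ : ℝ) + 1 ≤ 80 * P.k := by exact_mod_cast h'
    nlinarith
  have he : ((Nat.log 2 P.k + 1 : ℕ) : ℝ) ≤ 4 * LL := by
    have h1 : 2 ^ Nat.log 2 P.k ≤ ℓ :=
      (Nat.pow_log_le_self 2 (by have := P.hk; omega)).trans (hPk ▸ Nat.div_le_self _ _)
    have h2 : (Nat.log 2 P.k : ℝ) * Real.log 2 ≤ Real.log (2 * LN) := by
      rw [← Real.log_pow]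
      refine Real.log_le_log (by positivity) (le_trans (by exact_mod_cast h1 : (2 : ℝ) ^ Nat.log 2 P.k ≤ ℓ) ?_)
      nlinarith
    rw [Real.log_mul (by norm_num) (by linarith : LN ≠ 0), ← hLL] at h2
    push_cast
    nlinarith
  have hm : (P.k : ℝ) ≤ 8 * LL * P.m := by
    have h1 : (P.k : ℝ) ≤ 2 * (P.m * ((Nat.log 2 P.k + 1 : ℕ) : ℝ)) := by exact_mod_cast hPm
    have h2 := mul_le_mul_of_nonneg_left he (Nat.cast_nonneg P.m : (0 : ℝ) ≤ (P.m : ℝ))
    linarith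
  rw [div_le_iff₀ (by linarith : (0 : ℝ) < LL)]
  have h2 : LN ^ 2 ≤ (160 * (P.k : ℝ)) ^ 2 := pow_le_pow_left₀ (by linarith) hk 2
  have h3 := mul_le_mul_of_nonneg_left hm (Nat.cast_nonneg P.k : (0 : ℝ) ≤ (P.k : ℝ))
  nlinarith

end Vale.Agent.P238
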