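import Vale.Agent.P238.Fourier
import Vale.Agent.P238.Swap

/-!
Block swaps act on well separated sets through cheap rotations of intervals.
-/

namespace Vale.Agent.P238

open Finset
open Vale.Agent.P063 (coef)

variable {n : ℕ}

/-- Points of `S` at distance at most `3 * H` share their block, and `S` is small. -/
def Good (L r H Q : ℕ) (S : Finset (Fin n)) : Prop :=
  S.card ≤ Q ∧ ∀ i ∈ S, ∀ i' ∈ S,
    (i : ℕ) ≤ i' + 3 * H → (i' : ℕ) ≤ i + 3 * H → blk L r i = blk L r i'

/-- The condition that the pair of the point `i` is swapped at step `a`. -/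
def Stage (n L r H a i : ℕ) : Prop :=
  2 ≤ blk L r i ∧ min (a * H) n < pend L r i ∧ pend L r i ≤ min ((a + 1) * H) n

/-- The points of `S` whose pair is swapped at step `a`. -/
noncomputable def stageSet (L r H a : ℕ) (S : Finset (Fin n)) : Finset (Fin n) := by
  classical exact S.filter (fun i => Stage n L r H a i)

lemma mem_stageSet {L r H a : ℕ} {S : Finset (Fin n)} {i : Fin n} :
    i ∈ stageSet L r H a S ↔ i ∈ S ∧ Stage n L r H a i := by
  classical
  unfold stageSet
  simp

lemma act_congr {S : Finset (Fin n)} {σ τ : Equiv.Perm (Fin n)} (h : ∀ i ∈ S, σ i = τ i) :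
    act σ S = act τ S := by
  ext j
  simp only [act, Finset.mem_map, Equiv.coe_toEmbedding]
  constructor <;> rintro ⟨i, hi, rfl⟩
  · exact ⟨i, hi, (h i hi).symm⟩
  · exact ⟨i, hi, h i hi⟩

variable {L r : ℕ} (hL : 0 < L) (hr : r < 2 * L)

include hL hr

lemma sw_step_eq {H a : ℕ} {i : Fin n} (h : ¬ Stage n L r H a i) :
    sw n hL hr ((a + 1) * H) i = sw n hL hr (a * H) i := by
  apply Fin.ext
  rw [sw_val, sw_val]
  have : a * H ≤ (a + 1) * H := Nat.mul_le_mul_right H (Nat.le_succ a)
  unfold swNat
  unfold Stage at h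
  split_ifs <;> omega

/-- Shift of the `a`-th step, to the right. -/
noncomputable def stepUp (n L H a : ℕ) : Equiv.Perm (Fin n) :=
  rot n (a * H - H) (a * H + 2 * H) L

omit hL hr in
/-- Shift of the `a`-th step, to the left. -/
noncomputable def stepDown (n L H a : ℕ) : Equiv.Perm (Fin n) :=
  rot n (a * H - H) (a * H + 2 * H) (min (a * H + 2 * H) n - (a * H - H) - L)

lemma sw_step_cases {H Q a : ℕ} (hH : 3 * L ≤ H) {S : Finset (Fin n)}
    (hS : Good L r H Q S) :
    (stageSet L r H a S = ∅ ∧
        act (sw n hL hr ((a + 1) * H)) S = act (sw n hL hr (a * H)) S) ∨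
      act (sw n hL hr ((a + 1) * H)) S = act (stepUp n L H a) (act (sw n hL hr (a * H)) S) ∨
      act (sw n hL hr ((a + 1) * H)) S = act (stepDown n L H a) (act (sw n hL hr (a * H)) S) := by
  rcases (stageSet L r H a S).eq_empty_or_nonempty with h | ⟨i0, hi0⟩
  · refine Or.inl ⟨h, act_congr fun i hi => sw_step_eq hL hr fun hc => ?_⟩
    exact Finset.notMem_empty i (h ▸ mem_stageSet.2 ⟨hi, hc⟩)
  refine Or.inr ?_
  obtain ⟨hi0S, hst0⟩ := mem_stageSet.1 hi0
  obtain ⟨hb0, hlo0, hhi0⟩ := hst0
  have hN : (a + 1) * H = a * H + H := by ring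
  have hp0 := pend_bounds (i := (i0 : ℕ)) hL hr
  have key : ∀ i ∈ S, (Stage n L r H a i ∧ blk L r i = blk L r i0) ∨
      (¬ Stage n L r H a i ∧
        ((sw n hL hr (a * H) i : ℕ) < a * H - H ∨ a * H + 2 * H ≤ (sw n hL hr (a * H) i : ℕ))) := by
    intro i hi
    by_cases hc : Stage n L r H a i
    · refine Or.inl ⟨hc, hS.2 i hi i0 hi0S ?_ ?_⟩ <;>
      · have hp := pend_bounds (i := (i : ℕ)) hL hr
        have := hc.2
        omega
    · refine Or.inr ⟨hc, ?_⟩
      have hfar : ¬ ((i : ℕ) ≤ i0 + 3 * H ∧ (i0 : ℕ) ≤ i + 3 * H) := fun hd => by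
        have he := hS.2 i hi i0 hi0S hd.1 hd.2
        have hp : pend L r i = pend L r i0 := by unfold pend; rw [he]
        exact hc ⟨by omega, by omega, by omega⟩
      rw [sw_val]
      have hn := swNat_near (L := L) (r := r) (N := min (a * H) n) (i := (i : ℕ))
      omega
  rcases Nat.mod_two_eq_zero_or_one (blk L r i0) with hpar | hpar
  · refine Or.inl ?_
    rw [act_act]
    refine act_congr fun i hi => ?_
    rw [Equiv.trans_apply]
    apply Fin.ext
    rcases key i hi with ⟨hc, he⟩ | ⟨hc, hout⟩
    · have hpe := pend_even (i := (i : ℕ)) hL hr (by rw [he]; exact hpar)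
      obtain ⟨hc1, hc2, hc3⟩ := hc
      have e1 : (sw n hL hr ((a + 1) * H) i : ℕ) = i + L := by
        rw [sw_val, swNat, if_pos ⟨hc1, hc3⟩, if_pos (by rw [he]; exact hpar)]
      have e0 : sw n hL hr (a * H) i = i := by
        apply Fin.ext
        rw [sw_val, swNat, if_neg]
        intro h'; omega
      rw [e1, e0, stepUp, rot_val, rotNat, if_pos (by omega), if_pos (by omega)]
      omega
    · rw [sw_step_eq hL hr hc, stepUp, rot_out]
      exact hout
  · refine Or.inr ?_
    rw [act_act]
    refine act_congr fun i hi => ?_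
    rw [Equiv.trans_apply]
    apply Fin.ext
    rcases key i hi with ⟨hc, he⟩ | ⟨hc, hout⟩
    · have hpe := pend_odd (i := (i : ℕ)) hL hr (by rw [he]; exact hpar)
      obtain ⟨hc1, hc2, hc3⟩ := hc
      have hle := le_of_odd hL hr hc1 (by rw [he]; exact hpar)
      have e1 : (sw n hL hr ((a + 1) * H) i : ℕ) = i - L := by
        rw [sw_val, swNat, if_pos ⟨hc1, hc3⟩, if_neg (by rw [he, hpar]; omega)]
      have e0 : sw n hL hr (a * H) i = i := by
        apply Fin.ext
        rw [sw_val, swNat, if_neg]
        intro h'; omega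
      rw [e1, e0, stepDown, rot_val, rotNat, if_pos (by omega), if_neg (by omega)]
      omega
    · rw [sw_step_eq hL hr hc, stepDown, rot_out]
      exact hout

omit hL hr in
lemma sum_stage_card {H : ℕ} (A : ℕ) (S : Finset (Fin n)) :
    ∑ a ∈ range A, (stageSet L r H a S).card ≤ S.card := by
  rw [← Finset.card_biUnion]
  · refine Finset.card_le_card fun i hi => ?_
    obtain ⟨a, -, ha⟩ := Finset.mem_biUnion.1 hi
    exact (mem_stageSet.1 ha).1
  · intro a _ b _ hab
    rw [Function.onFun, Finset.disjoint_left]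
    intro i hia hib
    obtain ⟨-, -, h1, h2⟩ := mem_stageSet.1 hia
    obtain ⟨-, -, h3, h4⟩ := mem_stageSet.1 hib
    rcases lt_or_gt_of_ne hab with h | h
    · have := Nat.mul_le_mul_right H (show a + 1 ≤ b from h)
      omega
    · have := Nat.mul_le_mul_right H (show b + 1 ≤ a from h)
      omega

omit hr hL in
lemma sq_sum_le_support (s : Finset ℕ) (x : ℕ → ℝ) (P : ℕ → Prop) [DecidablePred P]
    (hx : ∀ a ∈ s, ¬ P a → x a = 0) :
    (∑ a ∈ s, x a) ^ 2 ≤ ((s.filter P).card : ℝ) * ∑ a ∈ s, x a ^ 2 := by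
  have h1 : ∑ a ∈ s, x a = ∑ a ∈ s.filter P, x a := by
    refine (Finset.sum_subset (Finset.filter_subset _ _) fun a ha h => ?_).symm
    exact hx a ha fun hP => h (Finset.mem_filter.2 ⟨ha, hP⟩)
  rw [h1]
  refine (sq_sum_le_card_mul_sum_sq).trans (mul_le_mul_of_nonneg_left ?_ (Nat.cast_nonneg _))
  exact Finset.sum_le_sum_of_subset_of_nonneg (Finset.filter_subset _ _) fun a _ _ => sq_nonneg _

lemma good_diff_le {H Q : ℕ} (hH : 3 * L ≤ H) (c : Finset (Fin n) → ℝ) {S : Finset (Fin n)}
    (hS : Good L r H Q S) :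
    (c (act (sw n hL hr n) S) - c S) ^ 2 ≤ (Q : ℝ) * ∑ a ∈ range (n / H + 1),
      ((c (act (stepUp n L H a) (act (sw n hL hr (a * H)) S)) -
          c (act (sw n hL hr (a * H)) S)) ^ 2 +
        (c (act (stepDown n L H a) (act (sw n hL hr (a * H)) S)) -
          c (act (sw n hL hr (a * H)) S)) ^ 2) := by
  classical
  set T := fun a => act (sw n hL hr (a * H)) S with hT
  have hT0 : T 0 = S := by
    have e : ∀ i ∈ S, sw n hL hr (0 * H) i = (Equiv.refl (Fin n)) i := by
      intro i _
      apply Fin.ext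
      rw [sw_val, swNat, if_neg, Equiv.refl_apply]
      intro h
      have := pend_ge h.1
      omega
    rw [hT]
    exact (act_congr e).trans (act_refl S)
  have hTA : T (n / H + 1) = act (sw n hL hr n) S := by
    refine act_congr fun i _ => Fin.ext ?_
    have h1 : n ≤ (n / H + 1) * H := (Nat.lt_mul_div_succ n (by omega : 0 < H)).le.trans_eq (by ring)
    rw [sw_val, sw_val, Nat.min_eq_right h1, Nat.min_self]
  have hsum : c (act (sw n hL hr n) S) - c S =
      ∑ a ∈ range (n / H + 1), (c (T (a + 1)) - c (T a)) := by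
    rw [Finset.sum_range_sub (fun a => c (T a)), hTA, hT0]
  rw [hsum]
  refine (sq_sum_le_support _ _ (fun a => (stageSet L r H a S).Nonempty) ?_).trans ?_
  · intro a _ h
    rcases sw_step_cases hL hr hH (a := a) hS with ⟨-, h2⟩ | h2
    · simp only [hT]; rw [h2, sub_self]
    · have he := Finset.not_nonempty_iff_eq_empty.1 h
      have h3 : T (a + 1) = T a := act_congr fun i hi => sw_step_eq hL hr fun hc =>
        Finset.notMem_empty i (he ▸ mem_stageSet.2 ⟨hi, hc⟩)
      rw [h3, sub_self]
  · have hcard : ((range (n / H + 1)).filter (fun a => (stageSet L r H a S).Nonempty)).card ≤ Q := by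
      rw [Finset.card_filter]
      refine le_trans (Finset.sum_le_sum fun a _ => ?_) ((sum_stage_card (L := L) (r := r) (H := H) _ S).trans hS.1)
      split_ifs with h
      · exact h.card_pos
      · exact Nat.zero_le _
    refine mul_le_mul (by exact_mod_cast hcard) (Finset.sum_le_sum fun a _ => ?_)
      (Finset.sum_nonneg fun a _ => sq_nonneg _) (Nat.cast_nonneg _)
    rcases sw_step_cases hL hr hH (a := a) hS with ⟨-, h2⟩ | h2 | h2
    · simp only [hT]; rw [h2, sub_self, zero_pow two_ne_zero]; positivity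
    · simp only [hT]; rw [h2]; exact le_add_of_nonneg_right (sq_nonneg _)
    · simp only [hT]; rw [h2]; exact le_add_of_nonneg_left (sq_nonneg _)

lemma mv_sw_le {f : Finset (Fin n) → ℝ} (hf : Zo f) {H Q : ℕ} (hH : 3 * L ≤ H)
    [DecidablePred (Good (n := n) L r H Q)] :
    mv f (act (sw n hL hr n)) ≤
      2 * (Q : ℝ) * ∑ a ∈ range (n / H + 1),
          (mv f (act (stepUp n L H a)) + mv f (act (stepDown n L H a))) +
        4 * ∑ S ∈ Finset.univ.filter (fun S => ¬ Good L r H Q S), coef half f S ^ 2 := by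
  set c := coef half f with hc
  set π := sw n hL hr n with hπ
  have hinv : Function.Involutive (act π) := fun S => by
    rw [act_act]
    exact (act_congr fun i _ => sw_sw hL hr n i).trans (act_refl S)
  set G := fun S => if Good L r H Q S then (c (act π S) - c S) ^ 2 else 0 with hG
  set B := fun S => if Good L r H Q S then 0 else 2 * c S ^ 2 with hB
  have hG0 : ∀ S, 0 ≤ G S := fun S => by simp only [hG]; split_ifs <;> positivity
  have hB0 : ∀ S, 0 ≤ B S := fun S => by simp only [hB]; split_ifs <;> positivity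
  have hpt : ∀ S, (c (act π S) - c S) ^ 2 ≤ G S + G (act π S) + (B S + B (act π S)) := by
    intro S
    by_cases h1 : Good L r H Q S
    · have : G S = (c (act π S) - c S) ^ 2 := if_pos h1
      linarith [hG0 (act π S), hB0 S, hB0 (act π S)]
    by_cases h2 : Good L r H Q (act π S)
    · have : G (act π S) = (c (act π S) - c S) ^ 2 := by
        simp only [hG]; rw [if_pos h2, hinv S]; ring
      linarith [hG0 S, hB0 S, hB0 (act π S)]
    · simp only [hG, hB, if_neg h1, if_neg h2]
      nlinarith [sq_nonneg (c (act π S) + c S)]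
  rw [mv_act hf]
  refine (Finset.sum_le_sum fun S _ => hpt S).trans ?_
  rw [Finset.sum_add_distrib (f := fun S => G S + G (act π S)),
    Finset.sum_add_distrib (f := G), Finset.sum_add_distrib (f := B)]
  rw [show ∑ S, G (act π S) = ∑ S, G S from Equiv.sum_comp (Equiv.ofBijective _ hinv.bijective) G,
    show ∑ S, B (act π S) = ∑ S, B S from Equiv.sum_comp (Equiv.ofBijective _ hinv.bijective) B]
  have hBs : ∑ S, B S = 2 * ∑ S ∈ Finset.univ.filter (fun S => ¬ Good L r H Q S), c S ^ 2 := by
    rw [Finset.mul_sum, Finset.sum_filter]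
    exact Finset.sum_congr rfl fun S _ => by simp only [hB, ite_not]
  have hGs : ∑ S, G S ≤ (Q : ℝ) * ∑ a ∈ range (n / H + 1),
      (mv f (act (stepUp n L H a)) + mv f (act (stepDown n L H a))) := by
    calc ∑ S, G S ≤ ∑ S : Finset (Fin n), (Q : ℝ) * ∑ a ∈ range (n / H + 1),
          ((c (act (stepUp n L H a) (act (sw n hL hr (a * H)) S)) -
              c (act (sw n hL hr (a * H)) S)) ^ 2 +
            (c (act (stepDown n L H a) (act (sw n hL hr (a * H)) S)) -
              c (act (sw n hL hr (a * H)) S)) ^ 2) := by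
          refine Finset.sum_le_sum fun S _ => ?_
          simp only [hG]
          split_ifs with h
          · exact good_diff_le hL hr hH c h
          · exact mul_nonneg (Nat.cast_nonneg _) (Finset.sum_nonneg fun a _ => by positivity)
      _ = _ := by
          rw [← Finset.mul_sum, Finset.sum_comm]
          congr 1
          refine Finset.sum_congr rfl fun a _ => ?_
          rw [Finset.sum_add_distrib, mv_act hf, mv_act hf]
          congr 1
          · exact Equiv.sum_comp (Equiv.ofBijective _ (act_bijective (sw n hL hr (a * H))))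
              (fun T => (c (act (stepUp n L H a) T) - c T) ^ 2)
          · exact Equiv.sum_comp (Equiv.ofBijective _ (act_bijective (sw n hL hr (a * H))))
              (fun T => (c (act (stepDown n L H a) T) - c T) ^ 2)
  linarith

end Vale.Agent.P238
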