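import Vale.Agent.P238.Fourier

/-!
Fourier mass on sets with few points in a window, controlled by rotations of the window.
-/

namespace Vale.Agent.P238

open Finset
open Vale.Agent.P063 (wt avg ex coef chi chi1 sd Mid cf part piv)

variable {ι : Type*} [DecidableEq ι] [Fintype ι]

lemma piv_le {f : Finset ι → ℝ} (hf : Zo f) {W : Finset ι} {σ : Equiv.Perm ι}
    (hσ : ∀ i, i ∉ W → σ i = i) {e : ι} (he : e ∈ W) (x : Finset ι) :
    avg half W (piv e f) x ≤
      2 * avg half W (fun z => |f (act σ z) - f z|) x + avg half W (piv (σ e) f) x := by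
  set g := fun z => |f (act σ z) - f z| with hg
  set h := fun z => |f (flipAt (σ e) z) - f z| with hh
  have h1 : avg half W (fun z => g (flipAt e z)) x = avg half W g x :=
    avg_comp (flipAt e) (flipAt_invol e).bijective (fun z => flipAt_sdiff he z) g x
  have h2 : avg half W (fun z => h (act σ z)) x = avg half W h x :=
    avg_comp (act σ) (act_bijective σ) (fun z => act_sdiff hσ z) h x
  have h3 : avg half W (piv e f) x ≤
      avg half W (fun z => g (flipAt e z) + (h (act σ z) + g z)) x := by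
    refine Vale.Agent.P063.avg_mono mid_half.pos mid_half.le_one (fun z => ?_) x
    rw [piv_eq hf]
    simp only [hg, hh]
    rw [act_flipAt]
    have a := abs_sub_le (f (flipAt e z)) (f (flipAt (σ e) (act σ z))) (f z)
    have b := abs_sub_le (f (flipAt (σ e) (act σ z))) (f (act σ z)) (f z)
    rw [abs_sub_comm (f (flipAt (σ e) (act σ z))) (f (flipAt e z))]
    linarith
  rw [Vale.Agent.P063.avg_add, Vale.Agent.P063.avg_add, h1, h2] at h3
  rw [piv_eq hf (σ e)]
  linarith

/-- The squared coefficients of `f` seen at the small nonempty subsets of the window. -/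
noncomputable def smallPart (W : Finset ι) (k : ℕ) (f : Finset ι → ℝ) (x : Finset ι) : ℝ :=
  ∑ U ∈ W.powerset.filter (fun U => 1 ≤ U.card ∧ U.card ≤ k), cf half W f U x ^ 2

lemma smallPart_le_one {f : Finset ι → ℝ} (hf : Zo f) (W : Finset ι) (k : ℕ) (x : Finset ι) :
    smallPart W k f x ≤ 1 := by
  refine (Vale.Agent.P063.bessel mid_half _
    (fun U hU => Finset.mem_powerset.1 (Finset.mem_filter.1 hU).1) f x).trans ?_
  refine (Vale.Agent.P063.avg_mono mid_half.pos mid_half.le_one (g := fun _ => 1) (fun z => ?_) x).trans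
    (Vale.Agent.P063.avg_const _ _ _ _).le
  rcases hf z with h | h <;> rw [h] <;> norm_num

lemma smallPart_le_sum {f : Finset ι → ℝ} (hf : Zo f) (W : Finset ι) (k : ℕ) (x : Finset ι) :
    smallPart W k f x ≤
      (5 : ℝ) ^ k * ∑ e ∈ W, avg half W (piv e f) x * Real.sqrt (avg half W (piv e f) x) := by
  set Us := W.powerset.filter (fun U => 1 ≤ U.card ∧ U.card ≤ k) with hUs
  have h1 : smallPart W k f x ≤ ∑ e ∈ W, ∑ U ∈ Us.filter (fun U => e ∈ U), cf half W f U x ^ 2 := by
    unfold smallPart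
    rw [← hUs]
    simp only [Finset.sum_filter (s := Us)]
    rw [Finset.sum_comm (s := W)]
    refine Finset.sum_le_sum fun U hU => ?_
    obtain ⟨hUW, hc, -⟩ := Finset.mem_filter.1 hU
    obtain ⟨e, he⟩ := Finset.card_pos.1 hc
    refine le_trans (le_of_eq (if_pos he).symm)
      (Finset.single_le_sum (f := fun e => if e ∈ U then cf half W f U x ^ 2 else 0)
        (fun a _ => by split_ifs <;> positivity) (Finset.mem_powerset.1 hUW he))
  refine h1.trans ?_
  rw [Finset.mul_sum]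
  refine Finset.sum_le_sum fun e he => ?_
  refine Vale.Agent.P063.cf_sq_le mid_half he _ (fun U hU => ?_) f hf x
  obtain ⟨h2, h3⟩ := Finset.mem_filter.1 hU
  obtain ⟨hUW, -, hc⟩ := Finset.mem_filter.1 h2
  exact ⟨Finset.mem_powerset.1 hUW, h3, hc⟩

lemma smallPart_le {f : Finset ι → ℝ} (hf : Zo f) (W : Finset ι) (k : ℕ) {u : ℕ} (hu : 1 ≤ u)
    (ρ : ℕ → Equiv.Perm ι) (hρ : ∀ s < u ^ 4, ∀ i, i ∉ W → ρ s i = i)
    (hinj : ∀ e ∈ W, ∀ s < u ^ 4, ∀ s' < u ^ 4, ρ s e = ρ s' e → s = s') (x : Finset ι) :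
    smallPart W k f x ≤
      (3 * (5 : ℝ) ^ k / u) * ∑ e ∈ W, avg half W (piv e f) x +
        (1 / (u : ℝ) ^ 2) * ∑ s ∈ range (u ^ 4),
          avg half W (fun z => |f (act (ρ s) z) - f z|) x := by
  set P := fun e => avg half W (piv e f) x with hP
  set I := ∑ e ∈ W, P e with hI
  set η := ∑ s ∈ range (u ^ 4), avg half W (fun z => |f (act (ρ s) z) - f z|) x with hη
  have hu1 : (1 : ℝ) ≤ u := by exact_mod_cast hu
  have hu0 : (0 : ℝ) < u := lt_of_lt_of_le one_pos hu1
  have hP0 : ∀ e, 0 ≤ P e := fun e => Vale.Agent.P063.avg_nonneg mid_half.pos mid_half.le_one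
    (Vale.Agent.P063.piv_nonneg e f) x
  have hI0 : 0 ≤ I := Finset.sum_nonneg fun e _ => hP0 e
  have hη0 : 0 ≤ η := Finset.sum_nonneg fun s _ =>
    Vale.Agent.P063.avg_nonneg mid_half.pos mid_half.le_one (fun z => abs_nonneg _) x
  have h5 : (1 : ℝ) ≤ 5 ^ k := one_le_pow₀ (by norm_num)
  change smallPart W k f x ≤ 3 * (5 : ℝ) ^ k / u * I + 1 / (u : ℝ) ^ 2 * η
  by_cases hgood : I ≤ (u : ℝ) ^ 2 ∧ η ≤ (u : ℝ) ^ 2
  · have hPe : ∀ e ∈ W, Real.sqrt (P e) ≤ 2 / u := by
      intro e he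
      have hmem : ∀ s < u ^ 4, ρ s e ∈ W := by
        intro s hs
        by_contra hne
        have h2 : ρ s e = e := (ρ s).injective (hρ s hs _ hne)
        exact hne (h2.symm ▸ he)
      have hsum : ((u : ℝ) ^ 4) * P e ≤ 2 * η + I := by
        have h1 : ∑ s ∈ range (u ^ 4), P e ≤ ∑ s ∈ range (u ^ 4),
            (2 * avg half W (fun z => |f (act (ρ s) z) - f z|) x + P (ρ s e)) :=
          Finset.sum_le_sum fun s hs => piv_le hf (hρ s (Finset.mem_range.1 hs)) he x
        rw [Finset.sum_const, Finset.card_range, nsmul_eq_mul, Finset.sum_add_distrib,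
          ← Finset.mul_sum] at h1
        have h2 : ∑ s ∈ range (u ^ 4), P (ρ s e) ≤ I := by
          rw [← Finset.sum_image (f := P) (g := fun s => ρ s e)
            (fun s hs s' hs' h => hinj e he s (Finset.mem_range.1 hs) s'
              (Finset.mem_range.1 hs') h)]
          refine Finset.sum_le_sum_of_subset_of_nonneg ?_ (fun e _ _ => hP0 e)
          intro a ha
          obtain ⟨s, hs, rfl⟩ := Finset.mem_image.1 ha
          exact hmem s (Finset.mem_range.1 hs)
        push_cast at h1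
        linarith
      rw [Real.sqrt_le_left (by positivity), div_pow, le_div_iff₀ (by positivity)]
      have h6 : (u : ℝ) ^ 4 * P e ≤ (2 : ℝ) ^ 2 * (u : ℝ) ^ 2 := by
        nlinarith [hgood.1, hgood.2, sq_nonneg (u : ℝ)]
      exact le_of_mul_le_mul_left (by nlinarith) (show (0 : ℝ) < (u : ℝ) ^ 2 by positivity)
    refine (smallPart_le_sum hf W k x).trans ?_
    have h7 : ∑ e ∈ W, P e * Real.sqrt (P e) ≤ I * (2 / u) := by
      rw [hI, Finset.sum_mul]
      exact Finset.sum_le_sum fun e he => mul_le_mul_of_nonneg_left (hPe e he) (hP0 e)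
    refine (mul_le_mul_of_nonneg_left h7 (by positivity)).trans ?_
    have : 0 ≤ 1 / (u : ℝ) ^ 2 * η := by positivity
    have : (5 : ℝ) ^ k * (I * (2 / u)) ≤ 3 * 5 ^ k / u * I := by
      rw [show (5 : ℝ) ^ k * (I * (2 / u)) = 2 * 5 ^ k / u * I by ring]
      gcongr
      norm_num
    linarith
  · refine (smallPart_le_one hf W k x).trans ?_
    rw [not_and_or, not_le, not_le] at hgood
    have hA : 1 / (u : ℝ) ^ 2 ≤ 3 * 5 ^ k / u := by
      rw [div_le_div_iff₀ (by positivity) hu0]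
      nlinarith [mul_nonneg (sub_nonneg.2 hu1) hu0.le]
    have hB : (1 : ℝ) ≤ 1 / (u : ℝ) ^ 2 * (I + η) := by
      rw [div_mul_eq_mul_div, le_div_iff₀ (by positivity)]
      rcases hgood with h | h <;> linarith
    nlinarith [mul_le_mul_of_nonneg_right hA hI0]

lemma windowMass_le {f : Finset ι → ℝ} (hf : Zo f) (W : Finset ι) (k : ℕ) {u : ℕ} (hu : 1 ≤ u)
    (ρ : ℕ → Equiv.Perm ι) (hρ : ∀ s < u ^ 4, ∀ i, i ∉ W → ρ s i = i)
    (hinj : ∀ e ∈ W, ∀ s < u ^ 4, ∀ s' < u ^ 4, ρ s e = ρ s' e → s = s') :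
    ∑ S ∈ Finset.univ.filter (fun S => 1 ≤ (S ∩ W).card ∧ (S ∩ W).card ≤ k),
        coef half f S ^ 2 ≤
      (3 * (5 : ℝ) ^ k / u) * ∑ e ∈ W, mv f (flipAt e) +
        (1 / (u : ℝ) ^ 2) * ∑ s ∈ range (u ^ 4), mv f (act (ρ s)) := by
  have hl : ex half (smallPart W k f) =
      ∑ S ∈ Finset.univ.filter (fun S => 1 ≤ (S ∩ W).card ∧ (S ∩ W).card ≤ k),
        coef half f S ^ 2 := by
    have hmaps : ∀ S ∈ Finset.univ.filter (fun S => 1 ≤ (S ∩ W).card ∧ (S ∩ W).card ≤ k),
        S ∩ W ∈ W.powerset.filter (fun U => 1 ≤ U.card ∧ U.card ≤ k) := fun S hS =>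
      Finset.mem_filter.2 ⟨Finset.mem_powerset.2 Finset.inter_subset_right, (Finset.mem_filter.1 hS).2⟩
    unfold ex smallPart
    rw [Vale.Agent.P063.avg_sum, ← Finset.sum_fiberwise_of_maps_to hmaps]
    refine Finset.sum_congr rfl fun U hU => ?_
    obtain ⟨hUW, hc⟩ := Finset.mem_filter.1 hU
    have h := ex_cf_sq W f (Finset.mem_powerset.1 hUW)
    unfold ex at h
    rw [h, Finset.filter_filter]
    refine Finset.sum_congr (Finset.filter_congr fun S _ => ?_) fun _ _ => rfl
    exact ⟨fun h => ⟨h ▸ hc, h⟩, fun h => h.2⟩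
  have hr : ex half (fun x => (3 * (5 : ℝ) ^ k / u) * ∑ e ∈ W, avg half W (piv e f) x +
        (1 / (u : ℝ) ^ 2) * ∑ s ∈ range (u ^ 4),
          avg half W (fun z => |f (act (ρ s) z) - f z|) x) =
      (3 * (5 : ℝ) ^ k / u) * ∑ e ∈ W, mv f (flipAt e) +
        (1 / (u : ℝ) ^ 2) * ∑ s ∈ range (u ^ 4), mv f (act (ρ s)) := by
    unfold ex
    rw [Vale.Agent.P063.avg_add, Vale.Agent.P063.avg_mul_left, Vale.Agent.P063.avg_mul_left,
      Vale.Agent.P063.avg_sum, Vale.Agent.P063.avg_sum]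
    congr 2
    · exact Finset.sum_congr rfl fun e _ => by
        rw [piv_eq hf, mv]; exact Vale.Agent.P063.ex_avg half W _
    · exact Finset.sum_congr rfl fun s _ => by
        rw [mv]; exact Vale.Agent.P063.ex_avg half W _
  rw [← hl, ← hr]
  exact Vale.Agent.P063.avg_mono mid_half.pos mid_half.le_one
    (fun x => smallPart_le hf W k hu ρ hρ hinj x) _

end Vale.Agent.P238
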